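import Mathlib

/-!
# Row 337 (helper75): the state based rung (note h75-4). Definitions and monotonicity.

`Good S d m t E Z x`: the cell of scale `m` at the site `x` has rung `≤ t` for the environment `E`
and the killed set `Z` (`d` = number of temporary dense parties).  Generic in the base leaves.
-/

set_option autoImplicit false
set_option linter.unusedSectionVars false

namespace Crest.Agent.N337.Rg

open Finset

/-- All data: metric, base leaves, octant counter, colours, scales. -/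
structure Sys (X α κ : Type) [SemilatticeSup α] [Preorder κ] where
  /-- metric on the sites -/
  d : X → X → ℕ
  d_self : ∀ x, d x x = 0
  d_comm : ∀ x y, d x y = d y x
  d_tri : ∀ x y z, d x z ≤ d x y + d y z
  /-- cell radii; `ρ 0` = range of the leaves -/
  ρ : ℕ → ℕ
  /-- `rad m t` = radius of the balls that cover the junk of scale `m` in a cell of rung `t` -/
  rad : ℕ → ℕ → ℕ
  /-- separation of the children of scale `m` in a witness -/
  sep : ℕ → ℕ
  /-- range in which the junk of scale `m` matters -/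
  H : ℕ → ℕ
  /-- largest radius of an isolating family of balls -/
  Sx : ℕ → ℕ
  /-- sizes of the level sets -/
  nl : ℕ → ℕ → ℕ
  /-- new covering balls per rung -/
  a : ℕ
  a1 : ℕ
  r : ℕ
  k0 : ℕ
  oc : ℕ
  tm : ℕ
  Lam : ℕ
  N : ℕ
  rad_step : ∀ m t, (Lam + 1) ^ 3 * rad m t ≤ rad m (t + 1)
  sep_le : ∀ m, sep m ≤ rad m 0
  Sx_ge : ∀ m, (Lam + 1) ^ 2 * rad m tm ≤ Sx m
  a_ge : 3 * a1 + r ≤ a
  N_ge : (tm + 1) * a + 2 * a1 ≤ N
  k0_pos : 1 ≤ k0
  /-- colours -/
  col : ℕ → X → ℕ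
  /-- number of killed grid cubes near the site -/
  oct : ℕ → κ → X → ℕ
  oct_mono : ∀ m x, Monotone fun Z => oct m Z x
  oct_le : ∀ m Z x, oct m Z x ≤ oc
  /-- the party has a point at the site -/
  hit : α → X → Prop
  hit_mono : ∀ {B C : α} {x : X}, B ≤ C → hit B x → hit C x
  /-- invisible sites -/
  dead : κ → X → Prop
  /-- the leaves are below the rung `t` -/
  G0 : ℕ → α → κ → X → Prop
  G0_mono : ∀ {t t' : ℕ} {E E' : α} {Z Z' : κ} {x : X}, t ≤ t' → E' ≤ E → Z ≤ Z' →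
    G0 t E Z x → G0 t' E' Z' x
  G0_loc : ∀ {t : ℕ} {E B : α} {Z : κ} {x : X}, (∀ z, hit B z → ρ 0 < d x z) →
    G0 t E Z x → G0 t (E ⊔ B) Z x
  G0_dead : ∀ {E : α} {Z : κ} {x : X}, (∀ z, d x z ≤ ρ 0 → dead Z z) → G0 0 E Z x
  /-- `W0 C E Z x`: a leaf of the party `C` relative to `E` -/
  W0 : α → α → κ → X → Prop
  W0_mono : ∀ {C C' E : α} {Z : κ} {x : X}, C ≤ C' → W0 C E Z x → W0 C' E Z x
  G0_step : ∀ {t : ℕ} {C E : α} {Z : κ} {x : X}, ¬ W0 C E Z x → G0 t E Z x →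
    G0 (t + 1) (E ⊔ C) Z x
  /-- one rung = two leaf units -/
  G0_step2 : ∀ {t : ℕ} {w C E : α} {Z : κ} {x : X}, ¬ W0 w E Z x → ¬ W0 C (E ⊔ w) Z x →
    G0 t E Z x → G0 (t + 1) (E ⊔ w ⊔ C) Z x

variable {X α κ : Type} [Fintype X] [SemilatticeSup α] [Preorder κ] (S : Sys X α κ)

namespace Sys

/-- range of the rung of scale `m`. -/
def loc : ℕ → ℕ
  | 0 => S.ρ 0
  | m + 1 => S.ρ (m + 1) + loc m

/-- `y` is a child (scale `m`) seen by the cell of rung `t` at `x`. -/
def In (m t : ℕ) (x y : X) : Prop := S.d x y + 3 * t * S.H m ≤ S.ρ (m + 1)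

/-- `y` is outside the balls of radius `R` round `F`. -/
def Off (F : Finset X) (R : ℕ) (y : X) : Prop := ∀ f ∈ F, R < S.d f y

open Classical in
/-- `F` is a cover for the cell of scale `m + 1` and rung `t` at `x`; `G l y` = the child `y` has
normalised rung `≤ l`. -/
structure Cov (m t : ℕ) (x : X) (G : ℕ → X → Prop) (F : Finset X) : Prop where
  card : F.card ≤ (t + 1) * S.a
  top : ∀ y, S.In m t x y → S.Off F (S.rad m t) y → G S.k0 y
  lev : ∀ l < S.k0, ∀ c, (univ.filter fun y =>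
    S.In m t x y ∧ S.Off F (S.rad m t) y ∧ S.col m y = c ∧ ¬ G l y).card ≤ (t + 1) * S.nl m l

/-- the rung of the cell of scale `m` at `x` is at most `t`. -/
def Good (d : ℕ) (E : α) (Z : κ) : ℕ → ℕ → X → Prop
  | 0, t, x => S.G0 t E Z x
  | m + 1, t, x => ∃ F, S.Cov m t x (fun l y => Good d E Z m (l + S.oct m Z y + d) y) F

/-- normalised rung of the children. -/
def Lv (d : ℕ) (E : α) (Z : κ) (m l : ℕ) (y : X) : Prop := S.Good d E Z m (l + S.oct m Z y + d) y

/-- the rung. -/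
noncomputable def rk (d : ℕ) (E : α) (Z : κ) (m : ℕ) (x : X) : ℕ := sInf {t | S.Good d E Z m t x}

open Classical in
/-- the chosen cover of the cell of scale `m + 1` at `x`. -/
noncomputable def cov (d : ℕ) (E : α) (Z : κ) (m : ℕ) (x : X) : Finset X :=
  if h : ∃ F, S.Cov m (S.rk d E Z (m + 1) x) x (S.Lv d E Z m) F then h.choose else ∅

/-- admissible child (scale `m`) of the cell at `x`. -/
def Adm (d : ℕ) (E : α) (Z : κ) (m : ℕ) (x y : X) : Prop :=
  S.In m (S.rk d E Z (m + 1) x + 1) x y ∧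
    S.Off (S.cov d E Z m x) (S.rad m (S.rk d E Z (m + 1) x + 1)) y

/-- the party `B` visits the cell of scale `m` at `y` and no new octant dies. -/
def Vis (B : α) (Z Z' : κ) (m : ℕ) (y : X) : Prop :=
  S.oct m Z' y ≤ S.oct m Z y ∧ ∃ z, S.hit B z ∧ S.d y z ≤ S.loc m

open Classical in
/-- targets of level `l` and colour `c`. -/
noncomputable def T1 (d : ℕ) (E : α) (Z : κ) (m : ℕ) (x : X) (l c : ℕ) : Finset X :=
  univ.filter fun y => S.Adm d E Z m x y ∧ S.col m y = c ∧ ∀ l', l = l' + 1 → ¬ S.Lv d E Z m l' y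

open Classical in
/-- targets of the last level. -/
noncomputable def T2 (d : ℕ) (E : α) (Z : κ) (m : ℕ) (x : X) : Finset X :=
  univ.filter fun y => S.Adm d E Z m x y ∧ ¬ S.Lv d E Z m (S.k0 - 1) y

/-- `n` points with the property `P`, pairwise at distance `> s`. -/
def Sepd (P : X → Prop) (n s : ℕ) : Prop :=
  ∃ Y : Finset X, Y.card = n ∧ (∀ y ∈ Y, P y) ∧ ∀ y ∈ Y, ∀ y' ∈ Y, y ≠ y' → s < S.d y y'

open Classical in
/-- too many sites with the property `P` in one colour class of one level set. -/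
def COV1 (d : ℕ) (E : α) (Z : κ) (m : ℕ) (x : X) (P : X → Prop) : Prop :=
  ∃ l < S.k0, ∃ c, S.nl m l < ((S.T1 d E Z m x l c).filter P).card

/-- too many separated sites with the property `P` in the last level set. -/
def COV2 (d : ℕ) (E : α) (Z : κ) (m : ℕ) (x : X) (P : X → Prop) : Prop :=
  S.Sepd (fun y => y ∈ S.T2 d E Z m x ∧ P y) (S.r + 1) (S.sep m)

/-- junk cells. -/
def Jk (d : ℕ) (E : α) (Z : κ) (m : ℕ) (y : X) : Prop := ¬ S.Good d E Z m (S.k0 + S.oc + d) y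

/-- `y` is isolated from the junk `U m` of scale `m`. -/
def Iso (U : ℕ → X → Prop) (m : ℕ) (y : X) : Prop :=
  ∃ (s : ℕ) (F : Finset X), S.sep m ≤ s ∧ s ≤ S.Sx m ∧ F.card ≤ S.N ∧
    (∀ u, U m u → S.d y u ≤ S.H m → ∃ f ∈ F, S.d f u ≤ s) ∧ ∀ f ∈ F, S.Lam * s < S.d f y

/-- **failing cells**: trees of isolated cells with leaves `L`. -/
def Fl (U : ℕ → X → Prop) (L : X → Prop) : ℕ → X → Prop
  | 0, x => L x
  | m + 1, x => S.Sepd (fun y => S.d x y ≤ S.ρ (m + 1) ∧ S.Iso U m y ∧ Fl U L m y) (S.a1 + 1)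
      (S.sep m)

/-- **covisit trees**: `V` = visited, `Q` = clean (in the final state). -/
def W2 (d : ℕ) (E : α) (Z : κ) (V Q : ℕ → X → Prop) : ℕ → X → Prop
  | 0, _ => False
  | m + 1, x => S.COV1 d E Z m x (fun y => V m y ∧ Q m y) ∨
      S.COV2 d E Z m x (fun y => V m y ∧ Q m y) ∨
      S.Sepd (fun y => S.Adm d E Z m x y ∧ Q m y ∧ W2 d E Z V Q m y) (S.a1 + 1) (S.sep m)

/-- `n + 1` separated isolated failing children; `Fl U L (m + 1) x = Fn U L a1 m x`. -/
def Fn (U : ℕ → X → Prop) (L : X → Prop) (n m : ℕ) (x : X) : Prop :=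
  S.Sepd (fun y => S.d x y ≤ S.ρ (m + 1) ∧ S.Iso U m y ∧ S.Fl U L m y) (n + 1) (S.sep m)

/-- `W2 .. (m + 1) x = Wn .. a1 m x`. -/
def Wn (d : ℕ) (E : α) (Z : κ) (V Q : ℕ → X → Prop) (n m : ℕ) (x : X) : Prop :=
  S.COV1 d E Z m x (fun y => V m y ∧ Q m y) ∨ S.COV2 d E Z m x (fun y => V m y ∧ Q m y) ∨
    S.Sepd (fun y => S.Adm d E Z m x y ∧ Q m y ∧ S.W2 d E Z V Q m y) (n + 1) (S.sep m)

variable {S}
variable {d d' m t t' : ℕ} {E E' B B' C C' : α} {Z Z' : κ} {x y : X}

lemma good_succ : S.Good d E Z (m + 1) t x ↔ ∃ F, S.Cov m t x (S.Lv d E Z m) F := Iff.rfl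

lemma rad_mono (S : Sys X α κ) (m : ℕ) : Monotone (S.rad m) := monotone_nat_of_le_succ fun t =>
  le_trans (Nat.le_mul_of_pos_left _ (by positivity)) (S.rad_step m t)

lemma sep_le_rad (S : Sys X α κ) (m t : ℕ) : S.sep m ≤ S.rad m t :=
  (S.sep_le m).trans (S.rad_mono m (Nat.zero_le _))

lemma In.mono (h : S.In m t' x y) (ht : t ≤ t') : S.In m t x y :=
  le_trans (Nat.add_le_add_left (Nat.mul_le_mul_right _ (by omega)) _) h

lemma In.d_le (h : S.In m t x y) : S.d x y ≤ S.ρ (m + 1) := le_trans (Nat.le_add_right _ _) h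

lemma Off.mono {F F' : Finset X} {R R' : ℕ} (h : S.Off F' R' y) (hF : F ⊆ F') (hR : R ≤ R') :
    S.Off F R y := fun f hf => lt_of_le_of_lt hR (h f (hF hf))

lemma Cov.mono {G G' : ℕ → X → Prop} {F : Finset X} (h : S.Cov m t x G F) (ht : t ≤ t')
    (hG : ∀ l ≤ S.k0, ∀ y, S.In m t' x y → G l y → G' l y) : S.Cov m t' x G' F := by
  classical
  refine ⟨h.card.trans (Nat.mul_le_mul_right _ (by omega)), fun y h1 h2 => hG _ le_rfl y h1
    (h.top y (h1.mono ht) (h2.mono Subset.rfl (S.rad_mono m ht))), fun l hl c => ?_⟩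
  refine le_trans (card_le_card fun y hy => ?_)
    ((h.lev l hl c).trans (Nat.mul_le_mul_right _ (by omega)))
  simp only [mem_filter, mem_univ, true_and] at hy ⊢
  exact ⟨hy.1.mono ht, hy.2.1.mono Subset.rfl (S.rad_mono m ht), hy.2.2.1,
    fun hg => hy.2.2.2 (hG l hl.le y hy.1 hg)⟩

/-- **monotonicity.** -/
theorem Good.mono (h : S.Good d E Z m t x) (hd : d ≤ d') (hE : E' ≤ E) (hZ : Z ≤ Z')
    (ht : t ≤ t') : S.Good d' E' Z' m t' x := by
  induction m generalizing t t' x with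
  | zero => exact S.G0_mono ht hE hZ h
  | succ m ih =>
    obtain ⟨F, hF⟩ := h
    refine ⟨F, hF.mono ht fun l _ y _ hy => ih hy ?_⟩
    have := S.oct_mono m y hZ
    simp only at this
    omega

lemma Good.up (h : S.Good d E Z m t x) (ht : t ≤ t') : S.Good d E Z m t' x :=
  h.mono le_rfl le_rfl le_rfl ht

/-- **locality.** -/
theorem Good.loc (h : S.Good d E Z m t x) (hB : ∀ z, S.hit B z → S.loc m < S.d x z) :
    S.Good d (E ⊔ B) Z m t x := by
  induction m generalizing t x with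
  | zero => exact S.G0_loc hB h
  | succ m ih =>
    obtain ⟨F, hF⟩ := h
    refine ⟨F, hF.mono le_rfl fun l _ y hy hg => ih hg fun z hz => ?_⟩
    have h1 := hB z hz
    have h2 := S.d_tri x y z
    have := hy.d_le
    simp only [Sys.loc] at h1
    omega

/-- deep inside the killed set the rung vanishes. -/
theorem good_dead (h : ∀ z, S.d x z ≤ S.loc m → S.dead Z z) : S.Good d E Z m t x := by
  classical
  induction m generalizing t x with
  | zero => exact S.G0_mono (Nat.zero_le t) le_rfl le_rfl (S.G0_dead h)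
  | succ m ih =>
    have key : ∀ y t', S.In m t x y → S.Good d E Z m t' y := fun y t' hy => ih fun z hz => h z (by
      have h2 := S.d_tri x y z
      have := hy.d_le
      simp only [Sys.loc]
      omega)
    refine ⟨∅, by simp, fun y hy _ => key y _ hy, fun l _ c => ?_⟩
    rw [filter_eq_empty_iff.2 fun y _ hy => hy.2.2.2 (key y _ hy.1)]
    simp

lemma Good.rk_le (h : S.Good d E Z m t x) : S.rk d E Z m x ≤ t := Nat.sInf_le h

lemma Good.rk (h : S.Good d E Z m t x) : S.Good d E Z m (S.rk d E Z m x) x :=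
  Nat.sInf_mem (s := {t | S.Good d E Z m t x}) ⟨t, h⟩

lemma Good.cov (h : S.Good d E Z (m + 1) t x) :
    S.Cov m (S.rk d E Z (m + 1) x) x (S.Lv d E Z m) (S.cov d E Z m x) := by
  have h' : ∃ F, S.Cov m (S.rk d E Z (m + 1) x) x (S.Lv d E Z m) F := h.rk
  rw [Sys.cov, dif_pos h']
  exact h'.choose_spec

lemma Good.card_cov (h : S.Good d E Z (m + 1) t x) : (S.cov d E Z m x).card ≤ (t + 1) * S.a :=
  h.cov.card.trans (Nat.mul_le_mul_right _ (Nat.succ_le_succ h.rk_le))

lemma Lv.good {l : ℕ} (h : S.Lv d E Z m l y) : S.Good d E Z m (l + S.oc + d) y :=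
  Good.up h (by have := S.oct_le m Z y; omega)

/-- off the cover the children have rung `≤ k0 + oc + d` (this is `CovAt` of G1). -/
theorem Good.child (h : S.Good d E Z (m + 1) t x) (h1 : S.In m t x y)
    (h2 : S.Off (S.cov d E Z m x) (S.rad m t) y) : S.Good d E Z m (S.k0 + S.oc + d) y :=
  Lv.good (h.cov.top y (h1.mono h.rk_le) (h2.mono Subset.rfl (S.rad_mono m h.rk_le)))

/-- **excision resets the rung.** -/
theorem Good.excise (h : S.Good d E Z (m + 1) t x) (hZ : Z ≤ Z')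
    (hk : ∀ f ∈ S.cov d E Z m x, ∀ z, S.d f z ≤ S.rad m t + S.loc m → S.dead Z' z)
    (h1 : S.In m t x y) : S.Good d E Z' m (S.k0 + S.oc + d) y := by
  by_cases h2 : S.Off (S.cov d E Z m x) (S.rad m t) y
  · exact (h.child h1 h2).mono le_rfl le_rfl hZ le_rfl
  · simp only [Off, not_forall, not_lt] at h2
    obtain ⟨f, hf, h2⟩ := h2
    exact good_dead fun z hz => hk f hf z (by have := S.d_tri f y z; omega)

/-- the junk inside a good cell is covered. -/
theorem Good.jk_cov (h : S.Good d E Z (m + 1) t x) (h1 : S.In m t x y) (h2 : S.Jk d E Z m y) :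
    ∃ f ∈ S.cov d E Z m x, S.d f y ≤ S.rad m t := by
  by_contra hc
  exact h2 (h.child h1 fun f hf => lt_of_not_ge fun h3 => hc ⟨f, hf, h3⟩)

lemma Adm.d_le (hy : S.Adm d E Z m x y) : S.d x y ≤ S.ρ (m + 1) := hy.1.d_le

/-- admissible children are good. -/
lemma Adm.lv (h : S.Good d E Z (m + 1) t x) (hy : S.Adm d E Z m x y) : S.Lv d E Z m S.k0 y :=
  h.cov.top y (hy.1.mono (Nat.le_succ _)) (hy.2.mono Subset.rfl (S.rad_mono m (Nat.le_succ _)))

/-- size of the target sets. -/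
theorem card_T1 {l : ℕ} (h : S.Good d E Z (m + 1) t x) (hl : l < S.k0) (c : ℕ) :
    (S.T1 d E Z m x (l + 1) c).card ≤ (t + 1) * S.nl m l := by
  classical
  refine le_trans (card_le_card fun y hy => ?_)
    ((h.cov.lev l hl c).trans (Nat.mul_le_mul_right _ (Nat.succ_le_succ h.rk_le)))
  simp only [T1, mem_filter, mem_univ, true_and] at hy ⊢
  exact ⟨hy.1.1.mono (Nat.le_succ _), hy.1.2.mono Subset.rfl (S.rad_mono m (Nat.le_succ _)),
    hy.2.1, hy.2.2 l rfl⟩

theorem card_T2 {nc : ℕ} (h : S.Good d E Z (m + 1) t x) (hc : ∀ y, S.col m y < nc) :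
    (S.T2 d E Z m x).card ≤ nc * ((t + 1) * S.nl m (S.k0 - 1)) := by
  classical
  have hk := S.k0_pos
  have : S.T2 d E Z m x ⊆ (range nc).biUnion fun c => S.T1 d E Z m x (S.k0 - 1 + 1) c := by
    intro y hy
    simp only [T2, T1, mem_filter, mem_univ, true_and, mem_biUnion, mem_range] at hy ⊢
    refine ⟨_, hc y, hy.1, rfl, fun l' hl' => ?_⟩
    have : l' = S.k0 - 1 := by omega
    exact this ▸ hy.2
  refine (card_le_card this).trans (card_biUnion_le.trans ?_)
  refine (sum_le_card_nsmul _ _ _ fun c _ => card_T1 h (by omega) c).trans ?_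
  simp

lemma Sepd.mono {P Q : X → Prop} {n s : ℕ} (h : S.Sepd P n s) (hPQ : ∀ y, P y → Q y) :
    S.Sepd Q n s := by
  obtain ⟨Y, h1, h2, h3⟩ := h
  exact ⟨Y, h1, fun y hy => hPQ y (h2 y hy), h3⟩

lemma Vis.mono (h : S.Vis B Z Z' m y) (hB : B ≤ B') : S.Vis B' Z Z' m y := by
  obtain ⟨h1, z, h2, h3⟩ := h
  exact ⟨h1, z, S.hit_mono hB h2, h3⟩

lemma Iso.mono {U U' : ℕ → X → Prop} (h : S.Iso U m y) (hU : ∀ u, U' m u → U m u) :
    S.Iso U' m y := by
  obtain ⟨s, F, h1, h2, h3, h4, h5⟩ := h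
  exact ⟨s, F, h1, h2, h3, fun u hu => h4 u (hU u hu), h5⟩

lemma Jk.mono (h : S.Jk d E Z' m y) (hE : E ≤ E') (hZ : Z ≤ Z') : S.Jk d E' Z m y :=
  fun hg => h (hg.mono le_rfl hE hZ le_rfl)

theorem Fl.mono {U U' : ℕ → X → Prop} {L L' : X → Prop} (h : S.Fl U L m x)
    (hU : ∀ m u, U' m u → U m u) (hL : ∀ y, L y → L' y) : S.Fl U' L' m x := by
  induction m generalizing x with
  | zero => exact hL x h
  | succ m ih => exact Sepd.mono h fun y hy => ⟨hy.1, hy.2.1.mono (hU m), ih hy.2.2⟩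

lemma COV1.mono {P P' : X → Prop} (h : S.COV1 d E Z m x P) (hP : ∀ y, P y → P' y) :
    S.COV1 d E Z m x P' := by
  classical
  obtain ⟨l, hl, c, h⟩ := h
  refine ⟨l, hl, c, h.trans_le (card_le_card fun y hy => ?_)⟩
  simp only [mem_filter] at hy ⊢
  exact ⟨hy.1, hP y hy.2⟩

lemma COV2.mono {P P' : X → Prop} (h : S.COV2 d E Z m x P) (hP : ∀ y, P y → P' y) :
    S.COV2 d E Z m x P' := Sepd.mono h fun y hy => ⟨hy.1, hP y hy.2⟩

theorem W2.mono {V V' Q Q' : ℕ → X → Prop} (h : S.W2 d E Z V Q m x) (hV : ∀ m y, V m y → V' m y)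
    (hQ : ∀ m y, Q m y → Q' m y) : S.W2 d E Z V' Q' m x := by
  induction m generalizing x with
  | zero => exact h
  | succ m ih =>
    rcases h with h | h | h
    · exact .inl (h.mono fun y hy => ⟨hV m y hy.1, hQ m y hy.2⟩)
    · exact .inr (.inl (h.mono fun y hy => ⟨hV m y hy.1, hQ m y hy.2⟩))
    · exact .inr (.inr (h.mono fun y hy => ⟨hy.1, hQ m y hy.2.1, ih hy.2.2⟩))

end Sys

end Crest.Agent.N337.Rg
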