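import Crest.Agent.N337.Rg.Defs

/-!
# Row 337 (helper75): without a witness the rung grows by at most one; the reset lemma
-/

set_option autoImplicit false
set_option linter.unusedSectionVars false

namespace Crest.Agent.N337.Rg.Sys

open Finset

variable {X α κ : Type} [Fintype X] [SemilatticeSup α] [Preorder κ] {S : Sys X α κ}
variable {d m t : ℕ} {E E' B C : α} {Z Z' : κ} {x y : X}

/-- greedy covering. -/
theorem cover_of_not_sepd {P : X → Prop} {n s : ℕ} (h : ¬ S.Sepd P (n + 1) s) :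
    ∃ F : Finset X, F.card ≤ n ∧ ∀ y, S.Off F s y → ¬ P y := by
  classical
  obtain ⟨F, hF, hmax⟩ := exists_max_image ((univ : Finset (Finset X)).filter fun Y =>
    (∀ y ∈ Y, P y) ∧ ∀ y ∈ Y, ∀ y' ∈ Y, y ≠ y' → s < S.d y y') card ⟨∅, by simp⟩
  simp only [mem_filter, mem_univ, true_and] at hF hmax
  refine ⟨F, ?_, fun y hy hP => ?_⟩
  · by_contra hn
    obtain ⟨Y, hY, hc⟩ := exists_subset_card_eq (s := F) (n := n + 1) (by omega)
    exact h ⟨Y, hc, fun y hy => hF.1 y (hY hy), fun y hy y' hy' => hF.2 y (hY hy) y' (hY hy')⟩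
  · have hy' : y ∉ F := fun hm => by
      have := hy y hm
      rw [S.d_self] at this
      omega
    have := hmax (insert y F) ⟨fun z hz => ?_, fun z hz z' hz' hne => ?_⟩
    · rw [card_insert_of_notMem hy'] at this; omega
    · rcases mem_insert.1 hz with rfl | hz
      exacts [hP, hF.1 z hz]
    · rcases mem_insert.1 hz with rfl | hz <;> rcases mem_insert.1 hz' with rfl | hz'
      · exact absurd rfl hne
      · exact S.d_comm z' z ▸ hy z' hz'
      · exact hy _ ‹_›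
      · exact hF.2 z hz z' hz' hne

/-- the junk `U` at depth `h` inside the cell of rung `k` at `x` is covered by the balls `(F, s)`. -/
def Cv (S : Sys X α κ) (U : X → Prop) (m k : ℕ) (x : X) (F : Finset X) (s h : ℕ) : Prop :=
  ∀ u, S.d x u + 3 * k * S.H m + h * S.H m ≤ S.ρ (m + 1) → U u → ∃ f ∈ F, S.d f u ≤ s

section cv
variable {U : ℕ → X → Prop} {k s h : ℕ} {F : Finset X}

lemma Cv.iso (hc : S.Cv (U m) m k x F s h) (h1 : S.sep m ≤ s) (h2 : s ≤ S.Sx m)
    (h3 : F.card ≤ S.N) (hy : S.d x y + 3 * k * S.H m + (h + 1) * S.H m ≤ S.ρ (m + 1))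
    (ho : S.Off F (S.Lam * s) y) : S.Iso U m y :=
  ⟨s, F, h1, h2, h3, fun u hu hd => hc u (by have := S.d_tri x y u; nlinarith) hu, ho⟩

/-- one more stage of junk. -/
lemma Cv.stage [DecidableEq X] {L : X → Prop} {n : ℕ} (hc : S.Cv (U m) m k x F s h)
    (h1 : S.sep m ≤ s) (h2 : s ≤ S.Sx m) (h3 : F.card ≤ S.N) (hf : ¬ S.Fn U L n m x) :
    ∃ F1 : Finset X, F1.card ≤ n ∧
      S.Cv (fun u => U m u ∨ S.Fl U L m u) m k x (F ∪ F1) ((S.Lam + 1) * s) (h + 1) := by
  obtain ⟨F1, c1, hF⟩ := cover_of_not_sepd hf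
  refine ⟨F1, c1, fun u hu hU => ?_⟩
  by_contra hn
  simp only [not_exists, not_and, not_le, mem_union] at hn
  rcases hU with hU | hU
  · obtain ⟨f, hf, h4⟩ := hc u (by nlinarith) hU
    have := hn f (.inl hf)
    nlinarith
  · refine hF u (fun f hf => ?_) ⟨by nlinarith, hc.iso h1 h2 h3 hu fun f hf => ?_, hU⟩
    · have := hn f (.inr hf); nlinarith
    · have := hn f (.inl hf); nlinarith

lemma Cv.mono {P P' : X → Prop} (hc : S.Cv P m k x F s h) (hP : ∀ u, P' u → P u) :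
    S.Cv P' m k x F s h := fun u hu hU => hc u hu (hP u hU)

lemma Good.cv (h : S.Good d E Z (m + 1) t x) : S.Cv (S.Jk d E Z m) m (S.rk d E Z (m + 1) x) x
    (S.cov d E Z m x) (S.rad m (S.rk d E Z (m + 1) x)) 0 :=
  fun u hu hU => h.rk.jk_cov (by unfold In; omega) hU

end cv

lemma rad_Sx {s : ℕ} (hs : s ≤ S.tm) (i : ℕ) (hi : i ≤ 2) :
    (S.Lam + 1) ^ i * S.rad m s ≤ S.Sx m :=
  le_trans (Nat.mul_le_mul (Nat.pow_le_pow_right (by omega) hi) (S.rad_mono m hs)) (S.Sx_ge m)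

lemma Good.card_N (h : S.Good d E Z (m + 1) t x) (ht : t ≤ S.tm) :
    (S.cov d E Z m x).card + 2 * S.a1 ≤ S.N :=
  le_trans (Nat.add_le_add_right (h.card_cov.trans (Nat.mul_le_mul_right _ (by omega))) _) S.N_ge

/-- admissible children are isolated from the junk. -/
theorem Adm.iso (h : S.Good d E Z (m + 1) t x) (ht : t ≤ S.tm) (hy : S.Adm d E Z m x y) :
    S.Iso (S.Jk d E Z) m y := by
  have h1 := h.card_N ht
  have h2 := S.rad_step m (S.rk d E Z (m + 1) x)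
  have h3 := hy.1
  refine h.cv.iso (S.sep_le_rad _ _) (by simpa using rad_Sx (h.rk_le.trans ht) 0 (by omega))
    (by omega) (by unfold In at h3; nlinarith) (hy.2.mono Subset.rfl (le_trans ?_ h2))
  exact Nat.mul_le_mul_right _ (by nlinarith [Nat.zero_le (S.Lam ^ 2), Nat.zero_le (S.Lam ^ 3)])

/-- **dense step**: all new loops together cost one unit of `d` and one rung. -/
theorem step_d (hd : S.k0 + S.oc + d ≤ S.tm)
    (hW : ¬ S.Fl (S.Jk d E Z) (S.W0 C E Z) m x) (h : S.Good d E Z m t x) (ht : t ≤ S.tm) :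
    S.Good (d + 1) (E ⊔ C) Z m (t + 1) x := by
  classical
  induction m generalizing t x with
  | zero => exact S.G0_step hW h
  | succ m ih =>
    refine Good.up (t := S.rk d E Z (m + 1) x + 1) ?_ (Nat.succ_le_succ h.rk_le)
    have hc := h.cov
    have hN := h.card_N ht
    obtain ⟨F, hF, hF'⟩ := h.cv.stage (S.sep_le_rad _ _)
      (by simpa using rad_Sx (h.rk_le.trans ht) 0 (by omega)) (by omega) hW
    set s := S.rk d E Z (m + 1) x with hs
    have key : ∀ y, S.In m (s + 1) x y → S.Off (S.cov d E Z m x ∪ F) (S.rad m (s + 1)) y →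
        S.In m s x y ∧ S.Off (S.cov d E Z m x) (S.rad m s) y ∧
        ∀ l ≤ S.k0, S.Lv d E Z m l y → S.Lv (d + 1) (E ⊔ C) Z m l y := fun y h1 h2 => by
      refine ⟨h1.mono (Nat.le_succ _), h2.mono subset_union_left (S.rad_mono m (Nat.le_succ _)),
        fun l hl hg => ih (fun hf => ?_) hg
          (show l + S.oct m Z y + d ≤ S.tm by have := S.oct_le m Z y; omega)⟩
      obtain ⟨f, hf, h3⟩ := hF' y (by unfold In at h1; nlinarith) (.inr hf)
      have h4 := h2 f hf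
      have h5 := S.rad_step m s
      have : (S.Lam + 1) * S.rad m s ≤ (S.Lam + 1) ^ 3 * S.rad m s :=
        Nat.mul_le_mul_right _ (Nat.le_self_pow (by omega) _)
      omega
    refine ⟨S.cov d E Z m x ∪ F, ?_, fun y h1 h2 => ?_, fun l hl c => ?_⟩
    · have := card_union_le (S.cov d E Z m x) F
      have := hc.card
      have := S.a_ge
      nlinarith
    · obtain ⟨a1, a2, a3⟩ := key y h1 h2
      exact a3 _ le_rfl (hc.top y a1 a2)
    · refine le_trans (card_le_card fun y hy => ?_)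
        ((hc.lev l hl c).trans (Nat.mul_le_mul_right _ (Nat.le_succ _)))
      simp only [mem_filter, mem_univ, true_and] at hy ⊢
      obtain ⟨a1, a2, a3⟩ := key y hy.1 hy.2.1
      exact ⟨a1, a2, hy.2.2.1, fun hg => hy.2.2.2 (a3 l hl.le hg)⟩

/-- new junk = old junk or failing cells. -/
theorem jk_step (hd : S.k0 + S.oc + d ≤ S.tm) (h : S.Jk (d + 1) (E ⊔ C) Z m y) :
    S.Jk d E Z m y ∨ S.Fl (S.Jk d E Z) (S.W0 C E Z) m y := by
  by_contra hn
  rw [not_or] at hn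
  exact h (step_d hd hn.2 (not_not.1 hn.1) hd)

/-- what the sparse step needs from the failing cells `Fa` and the clean cells `Q`; `Fb m x` = the
cell of scale `m + 1` at `x` has an isolated failing child. -/
structure Fails (S : Sys X α κ) (d : ℕ) (E B : α) (Z : κ) (Fa Fb Q : ℕ → X → Prop) : Prop where
  base : ∀ y t, ¬ Fa 0 y → S.G0 t E Z y → S.G0 (t + 1) (E ⊔ B) Z y
  node : ∀ m x t, t ≤ S.tm → S.Good d E Z (m + 1) t x → ¬ Fa (m + 1) x →
    ∃ F : Finset X, F.card ≤ 2 * S.a1 ∧ ∀ y, S.Adm d E Z m x y →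
      S.Off F (S.rad m (S.rk d E Z (m + 1) x + 1)) y → ¬ Fa m y ∧ Q m y
  all : ∀ m x t, t ≤ S.tm → S.Good d E Z (m + 1) t x → ¬ Fb m x →
    ∀ y, S.Adm d E Z m x y → ¬ Fa m y ∧ Q m y

lemma lam_le (S : Sys X α κ) (m s i : ℕ) (hi : i ≤ 2) :
    S.Lam * ((S.Lam + 1) ^ i * S.rad m s) ≤ S.rad m (s + 1) ∧
      (S.Lam + 1) ^ i * S.rad m s ≤ S.rad m (s + 1) := by
  have h1 := S.rad_step m s
  have h2 : (S.Lam + 1) ^ (i + 1) * S.rad m s ≤ (S.Lam + 1) ^ 3 * S.rad m s :=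
    Nat.mul_le_mul_right _ (Nat.pow_le_pow_right (by omega) (by omega))
  rw [pow_succ] at h2
  constructor <;> nlinarith [Nat.zero_le ((S.Lam + 1) ^ i * S.rad m s),
    Nat.zero_le (S.Lam * ((S.Lam + 1) ^ i * S.rad m s))]

lemma one_aux {w : α} {n : ℕ} (hd : S.k0 + S.oc + d ≤ S.tm) (hn : n ≤ S.a1) (ht : t ≤ S.tm)
    (h : S.Good d E Z (m + 1) t x) (hW : ¬ S.Fn (S.Jk d E Z) (S.W0 w E Z) n m x) :
    ∃ F : Finset X, F.card ≤ 2 * n ∧ ∀ y, S.Adm d E Z m x y →
      S.Off F (S.rad m (S.rk d E Z (m + 1) x + 1)) y →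
      ¬ S.Fl (S.Jk d E Z) (S.W0 w E Z) m y ∧ S.Iso (S.Jk (d + 1) (E ⊔ w) Z) m y := by
  classical
  have hN := h.card_N ht
  have hs := h.rk_le.trans ht
  obtain ⟨F, hF, hF'⟩ := h.cv.stage (S.sep_le_rad _ _)
    (by simpa using rad_Sx hs 0 (by omega)) (by omega) hW
  set s := S.rk d E Z (m + 1) x
  have hl := S.lam_le m s 1 (by omega)
  rw [pow_one] at hl
  refine ⟨F, by omega, fun y hy ho => ?_⟩
  have h1 : S.In m (s + 1) x y := hy.1
  have ho' : S.Off (S.cov d E Z m x ∪ F) (S.rad m (s + 1)) y := fun f hf =>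
    (mem_union.1 hf).elim (hy.2 f) (ho f)
  refine ⟨fun hf => ?_, Cv.iso (hF'.mono fun u hu => jk_step hd hu)
    ((S.sep_le_rad m s).trans (Nat.le_mul_of_pos_left _ (by omega)))
    (by simpa using rad_Sx hs 1 (by omega)) ((card_union_le _ _).trans (by omega))
    (by unfold In at h1; nlinarith) (ho'.mono Subset.rfl hl.1)⟩
  obtain ⟨f, hf, h3⟩ := hF' y (by unfold In at h1; nlinarith) (.inr hf)
  have := ho' f hf
  omega

lemma all_of {R : ℕ} {A G : X → Prop}
    (h : ∃ F : Finset X, F.card ≤ 2 * 0 ∧ ∀ y, A y → S.Off F R y → G y) (y : X) (hy : A y) : G y := by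
  obtain ⟨F, h1, h2⟩ := h
  obtain rfl : F = ∅ := card_eq_zero.1 (by omega)
  exact h2 y hy fun f hf => absurd hf (notMem_empty f)

/-- one stage: `B ≤ w`. -/
theorem fails_one {w : α} (hd : S.k0 + S.oc + d ≤ S.tm) (hB : B ≤ w) :
    S.Fails d E B Z (S.Fl (S.Jk d E Z) (S.W0 w E Z)) (S.Fn (S.Jk d E Z) (S.W0 w E Z) 0)
      (S.Iso (S.Jk (d + 1) (E ⊔ w) Z)) :=
  ⟨fun _ _ h1 h2 => S.G0_mono le_rfl (sup_le_sup_left hB E) le_rfl (S.G0_step h1 h2),
    fun _ _ _ ht h hW => one_aux hd le_rfl ht h hW,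
    fun _ _ _ ht h hW => all_of (one_aux hd (Nat.zero_le _) ht h hW)⟩

lemma two_aux {w : α} {n : ℕ} (hd : S.k0 + S.oc + d + 1 ≤ S.tm) (hn : n ≤ S.a1) (ht : t ≤ S.tm)
    (h : S.Good d E Z (m + 1) t x) (hW : ¬ (S.Fn (S.Jk d E Z) (S.W0 w E Z) n m x ∨
      S.Fn (S.Jk (d + 1) (E ⊔ w) Z) (S.W0 C (E ⊔ w) Z) n m x)) :
    ∃ F : Finset X, F.card ≤ 2 * n ∧ ∀ y, S.Adm d E Z m x y →
      S.Off F (S.rad m (S.rk d E Z (m + 1) x + 1)) y →
      ¬ (S.Fl (S.Jk d E Z) (S.W0 w E Z) m y ∨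
        S.Fl (S.Jk (d + 1) (E ⊔ w) Z) (S.W0 C (E ⊔ w) Z) m y) ∧
      S.Iso (S.Jk (d + 1 + 1) (E ⊔ w ⊔ C) Z) m y := by
  classical
  have j1 : ∀ m u, S.Jk (d + 1) (E ⊔ w) Z m u → _ := fun m u => jk_step (by omega)
  have j2 : ∀ m u, S.Jk (d + 1 + 1) (E ⊔ w ⊔ C) Z m u → _ := fun m u => jk_step (by omega)
  have hN := h.card_N ht
  have hs := h.rk_le.trans ht
  obtain ⟨F1, hF1, c1⟩ := h.cv.stage (S.sep_le_rad _ _)
    (by simpa using rad_Sx hs 0 (by omega)) (by omega) (not_or.1 hW).1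
  set s := S.rk d E Z (m + 1) x
  have n1 := card_union_le (S.cov d E Z m x) F1
  have p1 : S.sep m ≤ (S.Lam + 1) * S.rad m s :=
    (S.sep_le_rad m s).trans (Nat.le_mul_of_pos_left _ (by omega))
  obtain ⟨F2, hF2, c2⟩ := Cv.stage (U := S.Jk (d + 1) (E ⊔ w) Z) (c1.mono (j1 m)) p1
    (by simpa using rad_Sx hs 1 (by omega)) (by omega) (not_or.1 hW).2
  have l1 := S.lam_le m s 1 (by omega)
  have l2 := S.lam_le m s 2 (by omega)
  have x2 := rad_Sx (m := m) hs 2 le_rfl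
  rw [pow_one] at l1
  rw [sq, mul_assoc] at l2 x2
  refine ⟨F1 ∪ F2, (card_union_le _ _).trans (by omega), fun y hy ho => ?_⟩
  have h1 : S.In m (s + 1) x y := hy.1
  have ho' : S.Off (S.cov d E Z m x ∪ F1 ∪ F2) (S.rad m (s + 1)) y := fun f hf => by
    rw [union_assoc] at hf
    exact (mem_union.1 hf).elim (hy.2 f) (ho f)
  refine ⟨fun hf => ?_, Cv.iso (c2.mono (j2 m)) (p1.trans (Nat.le_mul_of_pos_left _ (by omega)))
    x2 ((card_union_le _ _).trans (by omega)) (by unfold In at h1; nlinarith)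
    (ho'.mono Subset.rfl l2.1)⟩
  rcases hf with hf | hf
  · obtain ⟨f, hf, h3⟩ := c1 y (by unfold In at h1; nlinarith) (.inr hf)
    have := ho' f (mem_union_left _ hf)
    omega
  · obtain ⟨f, hf, h3⟩ := c2 y (by unfold In at h1; nlinarith) (.inr hf)
    have := ho' f hf
    omega

/-- two stages: the medium `w`, then the births `C`; `B ≤ w ⊔ C`. -/
theorem fails_two {w : α} (hd : S.k0 + S.oc + d + 1 ≤ S.tm) (hB : B ≤ w ⊔ C) :
    S.Fails d E B Z (fun m y => S.Fl (S.Jk d E Z) (S.W0 w E Z) m y ∨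
      S.Fl (S.Jk (d + 1) (E ⊔ w) Z) (S.W0 C (E ⊔ w) Z) m y)
      (fun m x => S.Fn (S.Jk d E Z) (S.W0 w E Z) 0 m x ∨
        S.Fn (S.Jk (d + 1) (E ⊔ w) Z) (S.W0 C (E ⊔ w) Z) 0 m x)
      (S.Iso (S.Jk (d + 1 + 1) (E ⊔ w ⊔ C) Z)) :=
  ⟨fun _ _ h1 h2 => S.G0_mono le_rfl (by rw [sup_assoc]; exact sup_le_sup_left hB E) le_rfl
    (S.G0_step2 (not_or.1 h1).1 (not_or.1 h1).2 h2),
    fun _ _ _ ht h hW => two_aux hd le_rfl ht h hW,
    fun _ _ _ ht h hW => all_of (two_aux hd (Nat.zero_le _) ht h hW)⟩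

variable {Fa Fb Q : ℕ → X → Prop}

lemma cov1_le {l : ℕ} {P : X → Prop} (h : ¬ S.COV1 d E Z m x P) (hl : l < S.k0) (c : ℕ)
    [DecidablePred P] : ((S.T1 d E Z m x l c).filter P).card ≤ S.nl m l := by
  by_contra hc
  refine h ⟨l, hl, c, ?_⟩
  have := Nat.lt_of_not_le hc
  convert this using 2
  congr

lemma cov2_balls {P : X → Prop} (h : ¬ S.COV2 d E Z m x P) : ∃ F : Finset X, F.card ≤ S.r ∧
    ∀ y, S.Adm d E Z m x y → S.Off F (S.sep m) y → P y → S.Lv d E Z m (S.k0 - 1) y := by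
  classical
  obtain ⟨F, c1, h1⟩ := cover_of_not_sepd h
  refine ⟨F, c1, fun y hy ho hP => ?_⟩
  by_contra hl
  refine h1 y ho ⟨?_, hP⟩
  simp only [T2, mem_filter, mem_univ, true_and]
  exact ⟨hy, hl⟩

/-- one child: the normalised rung does not grow unless the child is visited. -/
lemma lv_step {l : ℕ} (hZ : Z ≤ Z') (hl : l + S.oc + d ≤ S.tm)
    (ih : ∀ s ≤ S.tm, S.Good d E Z m s y → S.Good d (E ⊔ B) Z' m (s + 1) y)
    (h : S.Lv d E Z m l y) : S.Lv d (E ⊔ B) Z' m (l + 1) y ∧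
      (¬ S.Vis B Z Z' m y → S.Lv d (E ⊔ B) Z' m l y) := by
  have h1 := S.oct_le m Z y
  have h2 : S.oct m Z y ≤ S.oct m Z' y := S.oct_mono m y hZ
  have h3 := ih _ (by omega) h
  refine ⟨h3.up (by omega), fun hv => ?_⟩
  by_cases ho : S.oct m Z' y ≤ S.oct m Z y
  · refine (Good.loc h fun z hz => ?_).mono le_rfl le_rfl hZ (by omega)
    by_contra hc
    exact hv ⟨ho, z, hz, not_lt.1 hc⟩
  · exact h3.up (by omega)

/-- **sparse step**: pinning `B` and killing more raises the rung by at most one. -/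
theorem step_s (hd : S.k0 + S.oc + d ≤ S.tm) (hZ : Z ≤ Z') (hF : S.Fails d E B Z Fa Fb Q)
    (hf : ¬ Fa m x) (hW : ¬ S.W2 d E Z (S.Vis B Z Z') Q m x) (h : S.Good d E Z m t x)
    (ht : t ≤ S.tm) : S.Good d (E ⊔ B) Z' m (t + 1) x := by
  classical
  induction m generalizing t x with
  | zero => exact S.G0_mono le_rfl le_rfl hZ (hF.base _ _ hf h)
  | succ m ih =>
    refine Good.up (t := S.rk d E Z (m + 1) x + 1) ?_ (Nat.succ_le_succ h.rk_le)
    have hc := h.cov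
    simp only [W2, not_or] at hW
    obtain ⟨F1, c1, f1⟩ := hF.node m x t ht h hf
    obtain ⟨F2, c2, f2⟩ := cov2_balls hW.2.1
    obtain ⟨F3, c3, f3⟩ := cover_of_not_sepd hW.2.2
    set s := S.rk d E Z (m + 1) x with hs
    have hk := S.k0_pos
    have key : ∀ y, S.In m (s + 1) x y →
        S.Off (S.cov d E Z m x ∪ (F1 ∪ (F2 ∪ F3))) (S.rad m (s + 1)) y →
        S.Adm d E Z m x y ∧ Q m y ∧ (S.Vis B Z Z' m y → S.Lv d E Z m (S.k0 - 1) y) ∧
        ∀ s ≤ S.tm, S.Good d E Z m s y → S.Good d (E ⊔ B) Z' m (s + 1) y := fun y h1 h2 => by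
      have a1 : S.Adm d E Z m x y := ⟨h1, h2.mono subset_union_left le_rfl⟩
      have a2 := h2.mono subset_union_right le_rfl
      obtain ⟨b1, b2⟩ := f1 y a1 (a2.mono subset_union_left le_rfl)
      have a3 := a2.mono subset_union_right (S.sep_le_rad m (s + 1))
      exact ⟨a1, b2, fun hv => f2 y a1 (a3.mono subset_union_left le_rfl) ⟨hv, b2⟩,
        fun s hs hg => ih b1 (fun hw => f3 y (a3.mono subset_union_right le_rfl) ⟨a1, b2, hw⟩)
          hg hs⟩
    refine ⟨S.cov d E Z m x ∪ (F1 ∪ (F2 ∪ F3)), ?_, fun y h1 h2 => ?_, fun l hl c => ?_⟩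
    · have := card_union_le (S.cov d E Z m x) (F1 ∪ (F2 ∪ F3))
      have := card_union_le F1 (F2 ∪ F3)
      have := card_union_le F2 F3
      have := hc.card
      have := S.a_ge
      nlinarith
    · obtain ⟨a1, -, b2, b3⟩ := key y h1 h2
      by_cases hv : S.Vis B Z Z' m y
      · have := (lv_step hZ (by omega) b3 (b2 hv)).1
        rwa [Nat.sub_add_cancel hk] at this
      · exact (lv_step hZ (by omega) b3 (a1.lv h)).2 hv
    · refine le_trans (card_le_card (t := (univ.filter fun y => S.In m s x y ∧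
        S.Off (S.cov d E Z m x) (S.rad m s) y ∧ S.col m y = c ∧ ¬ S.Lv d E Z m l y) ∪
        (S.T1 d E Z m x l c).filter fun y => S.Vis B Z Z' m y ∧ Q m y) fun y hy => ?_) ?_
      · simp only [mem_filter, mem_univ, true_and, mem_union, T1] at hy ⊢
        obtain ⟨h1, h2, h3, h4⟩ := hy
        obtain ⟨a1, b1, -, b3⟩ := key y h1 h2
        by_cases hlv : S.Lv d E Z m l y
        · refine .inr ⟨⟨a1, h3, fun l' hl' hg => h4 ?_⟩, ?_, b1⟩
          · subst hl'
            exact (lv_step hZ (by omega) b3 hg).1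
          · by_contra hv
            exact h4 ((lv_step hZ (by omega) b3 hlv).2 hv)
        · exact .inl ⟨h1.mono (Nat.le_succ _),
            h2.mono subset_union_left (S.rad_mono m (Nat.le_succ _)), h3, hlv⟩
      · refine (card_union_le _ _).trans ?_
        have := Nat.add_le_add (hc.lev l hl c) (cov1_le hW.1 hl c)
        rw [add_mul (s + 1) 1, one_mul]
        convert this using 3

/-- **reset**: `B` is born in the larger environment `E'`, no isolated child fails there and `B`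
misses the neighbourhoods of the covers of `E'`; then it costs `|P|` rungs over the rung of
`E ≤ E'`. -/
theorem reset (hd : S.k0 + S.oc + d ≤ S.tm) (hF : S.Fails d E' B Z Fa Fb Q) (hE : E ≤ E')
    {P : Finset X} {t' : ℕ} (ht' : t' ≤ S.tm)
    (hP : ∀ y, S.d x y ≤ S.ρ (m + 1) → ∃ p ∈ P, S.In m (t' + 1) p y)
    (hG : ∀ p ∈ P, S.Good d E' Z (m + 1) t' p) (hf : ∀ p ∈ P, ¬ Fb m p)
    (hW : ∀ p ∈ P, ¬ S.Wn d E' Z (S.Vis B Z Z) Q 0 m p)
    (hM : ∀ p ∈ P, ∀ f ∈ S.cov d E' Z m p, ∀ z, S.hit B z → S.rad m (t' + 1) + S.loc m < S.d f z)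
    (h : S.Good d E Z (m + 1) t x) : S.Good d (E ⊔ B) Z (m + 1) (t + P.card) x := by
  classical
  obtain ⟨F0, hc⟩ := good_succ.1 h
  have hC1 := fun p hp => (not_or.1 (hW p hp)).1
  choose! F hF1 hF' using fun p (hp : p ∈ P) => cov2_balls (not_or.1 (not_or.1 (hW p hp)).2).1
  have hk := S.k0_pos
  have hle : E ⊔ B ≤ E' ⊔ B := sup_le_sup_right hE B
  have key : ∀ y, S.In m (t + P.card) x y → S.Off (F0 ∪ P.biUnion F) (S.rad m (t + P.card)) y →
      S.In m t x y ∧ S.Off F0 (S.rad m t) y ∧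
      (¬ S.Vis B Z Z m y → ∀ l, S.Lv d E Z m l y → S.Lv d (E ⊔ B) Z m l y) ∧
      (S.Vis B Z Z m y → ∃ p ∈ P, S.Adm d E' Z m p y ∧ Q m y ∧ S.Lv d E' Z m (S.k0 - 1) y ∧
        ∀ l < S.k0, S.Lv d E' Z m l y → S.Lv d (E ⊔ B) Z m (l + 1) y) := fun y h1 h2 => by
    refine ⟨h1.mono (Nat.le_add_right _ _), h2.mono subset_union_left
      (S.rad_mono m (Nat.le_add_right _ _)), fun hv l hl => Good.loc hl fun z hz => ?_,
      fun hv => ?_⟩
    · by_contra hc
      exact hv ⟨le_rfl, z, hz, not_lt.1 hc⟩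
    · obtain ⟨p, hp, hy⟩ := hP y h1.d_le
      have hr := Nat.succ_le_succ (hG p hp).rk_le
      have a1 : S.Adm d E' Z m p y := ⟨hy.mono hr, fun f hf => by
        obtain ⟨-, z, hz, h3⟩ := hv
        have := hM p hp f hf z hz
        have := S.d_tri f y z
        have := S.rad_mono m hr
        simp only [Nat.succ_eq_add_one] at this
        omega⟩
      obtain ⟨b0, b1⟩ := hF.all m p t' ht' (hG p hp) (hf p hp) y a1
      have b2 : ¬ S.W2 d E' Z (S.Vis B Z Z) Q m y := fun hw => (not_or.1 (not_or.1 (hW p hp)).2).2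
        ⟨{y}, rfl, by simpa using ⟨a1, b1, hw⟩, by simp⟩
      exact ⟨p, hp, a1, b1, hF' p hp y a1 (h2.mono ((subset_biUnion_of_mem F hp).trans
        subset_union_right) (S.sep_le_rad _ _)) ⟨hv, b1⟩, fun l hl hg => Good.mono
        (lv_step le_rfl (by omega) (fun s hs hg => step_s hd le_rfl hF b0 b2 hg hs)
          hg).1 le_rfl hle le_rfl le_rfl⟩
  refine ⟨F0 ∪ P.biUnion F, ?_, fun y h1 h2 => ?_, fun l hl c => ?_⟩
  · have h1 := card_union_le F0 (P.biUnion F)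
    have h2 := card_biUnion_le_card_mul P F S.a fun p hp => (hF1 p hp).trans
      (le_trans (Nat.le_add_left _ _) S.a_ge)
    have := hc.card
    nlinarith
  · obtain ⟨a1, a2, a3, a4⟩ := key y h1 h2
    by_cases hv : S.Vis B Z Z m y
    · obtain ⟨p, -, -, -, b1, b2⟩ := a4 hv
      have := b2 _ (by omega) b1
      rwa [Nat.sub_add_cancel hk] at this
    · exact a3 hv _ (hc.top y a1 a2)
  · refine le_trans (card_le_card (t := (univ.filter fun y => S.In m t x y ∧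
      S.Off F0 (S.rad m t) y ∧ S.col m y = c ∧ ¬ S.Lv d E Z m l y) ∪
      P.biUnion fun p => (S.T1 d E' Z m p l c).filter fun y => S.Vis B Z Z m y ∧ Q m y)
      fun y hy => ?_) ?_
    · simp only [mem_filter, mem_univ, true_and, mem_union, T1, mem_biUnion] at hy ⊢
      obtain ⟨h1, h2, h3, h4⟩ := hy
      obtain ⟨a1, a2, a3, a4⟩ := key y h1 h2
      by_cases hv : S.Vis B Z Z m y
      · obtain ⟨p, hp, b0, b1, -, b2⟩ := a4 hv
        refine .inr ⟨p, hp, ⟨b0, h3, fun l' hl' hg => h4 ?_⟩, hv, b1⟩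
        subst hl'
        exact b2 l' (by omega) hg
      · exact .inl ⟨a1, a2, h3, fun hg => h4 (a3 hv l hg)⟩
    · refine (card_union_le _ _).trans ?_
      have := Nat.add_le_add (hc.lev l hl c) (card_biUnion_le_card_mul P
        (fun p => (S.T1 d E' Z m p l c).filter fun y => S.Vis B Z Z m y ∧ Q m y) (S.nl m l)
        fun p hp => cov1_le (hC1 p hp) hl c)
      rw [add_right_comm, add_mul (t + 1)]
      convert this using 3

end Crest.Agent.N337.Rg.Sys
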