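import Crest.Agent.N337.Rg.Step

/-!
# Row 337 (helper75): the union bound over witness trees.

A witness is a finite set `I` of base `K` addresses (depth first order) with scales, ancestors and
labels.  If every witness is realised with probability at most the product of the prices of its
labels, then the tree events `W2`, `Fl` have probability at most `ε m`.
-/

set_option autoImplicit false
set_option linter.unusedSectionVars false

namespace Crest.Agent.N337.Rg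

open Finset

/-- outer measures on events. -/
structure Sub {Ω : Type} (μ : (Ω → Prop) → ℝ) : Prop where
  mono : ∀ A B : Ω → Prop, (∀ ω, A ω → B ω) → μ A ≤ μ B
  or : ∀ A B : Ω → Prop, μ (fun ω => A ω ∨ B ω) ≤ μ A + μ B
  bot : μ (fun _ => False) ≤ 0

/-- the event `A` is dominated by the witnesses `σ` with `O σ`. -/
def Dom {Ω W : Type} (μ : (Ω → Prop) → ℝ) (A : Ω → Prop) (O : W → Prop) (Re : W → Ω → Prop)
    (wt : W → ℝ) (ε : ℝ) : Prop :=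
  ∀ (R : Ω → Prop) (c : ℝ), 0 ≤ c → (∀ σ, O σ → μ (fun ω => R ω ∧ Re σ ω) ≤ c * wt σ) →
    μ (fun ω => R ω ∧ A ω) ≤ c * ε

section dom
variable {Ω W W' ι : Type} {μ : (Ω → Prop) → ℝ} {A : Ω → Prop} {O : W → Prop}
  {Re : W → Ω → Prop} {wt : W → ℝ} {ε ε' : ℝ}

lemma Sub.union (h : Sub μ) (s : Finset ι) (B : ι → Ω → Prop) (hA : ∀ ω, A ω → ∃ i ∈ s, B i ω) :
    μ A ≤ ∑ i ∈ s, μ (B i) := by
  classical
  induction s using Finset.induction_on generalizing A with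
  | empty => exact (h.mono _ _ fun ω hω => by simpa using hA ω hω).trans h.bot
  | insert j s hj ih =>
    rw [sum_insert hj]
    refine (h.mono _ (fun ω => B j ω ∨ ∃ i ∈ s, B i ω) fun ω hω => by
      simpa using hA ω hω).trans ((h.or _ _).trans ?_)
    exact add_le_add le_rfl (ih fun _ h => h)

lemma Dom.union (h : Sub μ) (s : Finset ι) (B : ι → Ω → Prop) {e : ι → ℝ}
    (hA : ∀ ω, A ω → ∃ i ∈ s, B i ω) (hB : ∀ i ∈ s, Dom μ (B i) O Re wt (e i))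
    (he : ∑ i ∈ s, e i ≤ ε) : Dom μ A O Re wt ε := fun R c hc H => by
  refine (h.union s (fun i ω => R ω ∧ B i ω) fun ω hω => ?_).trans
    ((sum_le_sum fun i hi => hB i hi R c hc H).trans ?_)
  · obtain ⟨i, hi, h1⟩ := hA ω hω.2
    exact ⟨i, hi, hω.1, h1⟩
  · rw [← mul_sum]; exact mul_le_mul_of_nonneg_left he hc

lemma Dom.union_le (h : Sub μ) (s : Finset ι) (B : ι → Ω → Prop) {n : ℕ} (h0 : 0 ≤ ε)
    (hA : ∀ ω, A ω → ∃ i ∈ s, B i ω) (hB : ∀ i ∈ s, Dom μ (B i) O Re wt ε) (hn : s.card ≤ n) :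
    Dom μ A O Re wt (n * ε) :=
  Dom.union h s B hA hB (by
    rw [sum_const, nsmul_eq_mul]; exact mul_le_mul_of_nonneg_right (Nat.cast_le.2 hn) h0)

lemma Dom.or (h : Sub μ) {B C : Ω → Prop} {e1 e2 : ℝ} (hA : ∀ ω, A ω → B ω ∨ C ω)
    (hB : Dom μ B O Re wt e1) (hC : Dom μ C O Re wt e2) : Dom μ A O Re wt (e1 + e2) :=
  Dom.union h univ (fun b : Bool => bif b then B else C) (e := fun b => bif b then e1 else e2)
    (fun ω hω => (hA ω hω).elim (fun h => ⟨true, mem_univ _, h⟩) fun h => ⟨false, mem_univ _, h⟩)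
    (fun b _ => by cases b; exacts [hC, hB]) (by simp)

lemma Dom.le (h : Dom μ A O Re wt ε) (he : ε ≤ ε') : Dom μ A O Re wt ε' := fun R c hc H =>
  (h R c hc H).trans (mul_le_mul_of_nonneg_left he hc)

lemma Dom.imp {O' : W → Prop} (h : Dom μ A O Re wt ε) (hO : ∀ σ, O σ → O' σ) :
    Dom μ A O' Re wt ε := fun R c hc H => h R c hc fun σ hσ => H σ (hO σ hσ)

/-- events are replaced by witnesses one at a time. -/
lemma Dom.seq (h : Sub μ) (hw : ∀ σ, 0 ≤ wt σ) (h0 : 0 ≤ ε) [Nonempty W] (s : Finset ι)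
    {B : ι → Ω → Prop} {O : ι → W → Prop} (hB : ∀ i ∈ s, Dom μ (B i) (O i) Re wt ε) :
    Dom μ (fun ω => ∀ i ∈ s, B i ω) (fun σ : ι → W => ∀ i ∈ s, O i (σ i))
      (fun σ ω => ∀ i ∈ s, Re (σ i) ω) (fun σ => ∏ i ∈ s, wt (σ i)) (ε ^ s.card) := by
  classical
  induction s using Finset.induction_on with
  | empty => exact fun R c _ H => by simpa using H (fun _ => Classical.arbitrary W) (by simp)
  | insert j s hj ih =>
    intro R c hc H
    rw [card_insert_of_notMem hj, pow_succ, ← mul_assoc]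
    refine (h.mono _ (fun ω => (R ω ∧ ∀ i ∈ s, B i ω) ∧ B j ω) fun ω hω => ⟨⟨hω.1, fun i hi =>
      hω.2 i (mem_insert_of_mem hi)⟩, hω.2 j (mem_insert_self _ _)⟩).trans
      (hB j (mem_insert_self _ _) _ _ (by positivity) fun τ hτ => ?_)
    rw [mul_right_comm]
    refine (h.mono _ (fun ω => (R ω ∧ Re τ ω) ∧ ∀ i ∈ s, B i ω) fun ω hω =>
      ⟨⟨hω.1.1, hω.2⟩, hω.1.2⟩).trans (ih (fun i hi => hB i (mem_insert_of_mem hi)) _ _
        (mul_nonneg hc (hw τ)) fun σ hσ => ?_)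
    have e : ∀ i ∈ s, Function.update σ j τ i = σ i := fun i hi =>
      Function.update_of_ne (ne_of_mem_of_not_mem hi hj) _ _
    have := H (Function.update σ j τ) (by
      simp only [forall_mem_insert, Function.update_self]
      exact ⟨hτ, fun i hi => (e i hi).symm ▸ hσ i hi⟩)
    simp only [prod_insert hj, Function.update_self, forall_mem_insert] at this
    rw [prod_congr rfl fun i hi => congrArg wt (e i hi), ← mul_assoc] at this
    exact le_trans (h.mono _ _ fun ω hω =>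
      ⟨hω.1.1, hω.1.2, fun i hi => (e i hi).symm ▸ hω.2 i hi⟩) this

end dom

/-- witnesses: addresses, scales, own separations, ancestors, labels. -/
structure Wt (X P : Type) where
  I : Finset ℕ
  lv : ℕ → ℕ
  sp : ℕ → ℕ
  z : ℕ → ℕ → X
  pt : ℕ → P

/-- the price of a witness. -/
noncomputable def Wt.wt {X P : Type} (q : ℕ → ℕ → P → ℝ) (σ : Wt X P) : ℝ :=
  ∏ n ∈ σ.I, q (σ.lv n) (σ.sp n) (σ.pt n)

/-- the witness with root of scale `m` is realised. -/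
def Wt.Real {X P Ω : Type} (Ht : Ω → ℕ → ℕ → P → Prop) (Q : Ω → ℕ → X → Prop) (m : ℕ) (σ : Wt X P)
    (ω : Ω) : Prop :=
  ∀ n ∈ σ.I, Ht ω (σ.lv n) (σ.sp n) (σ.pt n) ∧ ∀ k, σ.lv n ≤ k → k < m → Q ω k (σ.z n k)

lemma div_pow_mono {K n n' j k : ℕ} (hjk : j ≤ k) (h : n / K ^ j = n' / K ^ j) :
    n / K ^ k = n' / K ^ k := by
  obtain ⟨i, rfl⟩ := Nat.exists_eq_add_of_le hjk
  rw [pow_add, ← Nat.div_div_eq_div_mul, ← Nat.div_div_eq_div_mul, h]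

lemma exists_num {X : Type} (Y : Finset X) (x : X) : ∃ (e : X → ℕ) (g : ℕ → X),
    ∀ y ∈ Y, e y < Y.card ∧ g (e y) = y := by
  classical
  refine ⟨fun y => Y.toList.idxOf y, fun i => Y.toList.getD i x, fun y hy => ?_⟩
  have h : Y.toList.idxOf y < Y.toList.length := List.idxOf_lt_length_iff.2 (mem_toList.2 hy)
  exact ⟨by simpa using h, (List.getD_eq_getElem _ _ h).trans (List.getElem_idxOf h)⟩

variable {X α κ P Ω : Type} [Fintype X] [SemilatticeSup α] [Preorder κ]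

namespace Sys

/-- separation of the address `n` from its siblings of scale `k`. -/
def sq (S : Sys X α κ) (σ : Wt X P) (n k : ℕ) : ℕ := if σ.lv n = k then σ.sp n else S.sep k

/-- `σ` is a witness with root `y` of scale `m` and prefix `j`. -/
structure Ok (S : Sys X α κ) (K : ℕ) (cs : ℕ → ℕ) (J : ℕ → X → Finset P) (m : ℕ) (y : X) (j : ℕ)
    (σ : Wt X P) : Prop where
  pre : ∀ n ∈ σ.I, n / K ^ m = j
  lv : ∀ n ∈ σ.I, σ.lv n ≤ m
  root : ∀ n ∈ σ.I, σ.z n m = y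
  lf : ∀ n ∈ σ.I, σ.pt n ∈ J (σ.lv n) (σ.z n (σ.lv n))
  sp : ∀ n ∈ σ.I, cs (σ.lv n) ≤ σ.sp n ∧ σ.sp n ≤ S.sep (σ.lv n)
  ch : ∀ n ∈ σ.I, ∀ k, σ.lv n ≤ k → k < m → S.d (σ.z n (k + 1)) (σ.z n k) ≤ S.ρ (k + 1)
  sep : ∀ n ∈ σ.I, ∀ n' ∈ σ.I, ∀ k, n / K ^ (k + 1) = n' / K ^ (k + 1) → n / K ^ k ≠ n' / K ^ k →
    σ.lv n ≤ k ∧ S.sq σ n k < S.d (σ.z n k) (σ.z n' k)

variable {S : Sys X α κ} {K : ℕ} {cs : ℕ → ℕ} {J : ℕ → X → Finset P} {m j s : ℕ} {x y : X}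
  {σ : Wt X P} {μ : (Ω → Prop) → ℝ} {q : ℕ → ℕ → P → ℝ} {Ht : Ω → ℕ → ℕ → P → Prop}
  {Q : Ω → ℕ → X → Prop} {ε : ℝ}

/-- distance of a target from its ancestors. -/
lemma Ok.anc (h : S.Ok K cs J m y j σ) {n k : ℕ} (hn : n ∈ σ.I) (h1 : σ.lv n ≤ k) (h2 : k ≤ m) :
    S.d (σ.z n k) (σ.z n (σ.lv n)) + S.loc (σ.lv n) ≤ S.loc k := by
  induction k, h1 using Nat.le_induction with
  | base => simp [S.d_self]
  | succ k hk ih =>
    have := ih (by omega)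
    have := h.ch n hn k hk (by omega)
    have := S.d_tri (σ.z n (k + 1)) (σ.z n k) (σ.z n (σ.lv n))
    simp only [Sys.loc]; omega

/-- a single target. -/
theorem dom_leaf (hμ : Sub μ) (hK : 0 < K) {V : Ω → Prop} (h1 : cs m ≤ s) (h2 : s ≤ S.sep m)
    (hV : ∀ ω, V ω → ∃ v ∈ J m y, Ht ω m s v) (he : ∑ v ∈ J m y, q m s v ≤ ε) :
    Dom μ V (fun σ => S.Ok K cs J m y j σ ∧ ∀ n ∈ σ.I, S.sq σ n m ≤ s) (Wt.Real Ht Q m)
      (Wt.wt q) ε := by
  refine Dom.union hμ (J m y) (fun v ω => Ht ω m s v) hV (fun v hv R c _ H => ?_) he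
  have := H ⟨{j * K ^ m}, fun _ => m, fun _ => s, fun _ _ => y, fun _ => v⟩
    ⟨⟨by simp [hK.ne'], by simp, by simp, by simpa using hv, by simp [h1, h2],
      fun _ _ k _ _ => by simp [S.d_self], by simp⟩, by simp [sq]⟩
  simp only [Wt.wt, prod_singleton] at this
  exact le_trans (hμ.mono _ _ fun ω hω => ⟨hω.1, fun _ _ => ⟨hω.2, fun k h1 h2 => by
    simp only at h1; omega⟩⟩) this

/-- `n` separated objects of scale `m` in a static set `T`. -/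
theorem dom_node [Nonempty P] (hμ : Sub μ) (hq : ∀ m s v, 0 ≤ q m s v) (h0 : 0 ≤ ε) {n t : ℕ}
    (hn : n ≤ K) (hK : 0 < K) {T : Finset X} (ht : T.card ≤ t) (hT : ∀ y ∈ T, S.d x y ≤ S.ρ (m + 1))
    {A : X → Ω → Prop} (hA : ∀ y ∈ T, ∀ j, Dom μ (A y)
      (fun σ => S.Ok K cs J m y j σ ∧ ∀ n ∈ σ.I, S.sq σ n m ≤ s) (Wt.Real Ht Q m) (Wt.wt q) ε) :
    Dom μ (fun ω => S.Sepd (fun y => y ∈ T ∧ Q ω m y ∧ A y ω) n s)
      (fun σ => S.Ok K cs J (m + 1) x j σ ∧ ∀ n ∈ σ.I, σ.lv n < m + 1) (Wt.Real Ht Q (m + 1))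
      (Wt.wt q) ((t * ε) ^ n) := by
  classical
  have : Nonempty (Wt X P) :=
    ⟨⟨∅, fun _ => 0, fun _ => 0, fun _ _ => x, fun _ => Classical.arbitrary P⟩⟩
  rw [mul_pow, ← Nat.cast_pow]
  refine Dom.union_le hμ ((powersetCard n T).filter fun Y => ∀ y ∈ Y, ∀ y' ∈ Y, y ≠ y' →
    s < S.d y y') (fun Y ω => (∀ y ∈ Y, Q ω m y) ∧ ∀ y ∈ Y, A y ω) (by positivity)
    (fun ω ⟨Y, h1, h2, h3⟩ => ⟨Y, mem_filter.2 ⟨mem_powersetCard.2 ⟨fun y hy => (h2 y hy).1, h1⟩,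
      h3⟩, fun y hy => (h2 y hy).2.1, fun y hy => (h2 y hy).2.2⟩) (fun Y hY R c hc H => ?_)
    ((card_filter_le _ _).trans (by
      rw [card_powersetCard]; exact (Nat.choose_le_pow _ _).trans (Nat.pow_le_pow_left ht _)))
  obtain ⟨hY, hs⟩ := mem_filter.1 hY
  obtain ⟨hY', rfl⟩ := mem_powersetCard.1 hY
  obtain ⟨e, g, he⟩ := exists_num Y x
  refine (hμ.mono _ (fun ω => (R ω ∧ ∀ y ∈ Y, Q ω m y) ∧ ∀ y ∈ Y, A y ω) fun ω hω =>
    ⟨⟨hω.1, hω.2.1⟩, hω.2.2⟩).trans (Dom.seq hμ (fun σ => prod_nonneg fun _ _ => hq _ _ _) h0 Y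
      (fun y hy => hA y (hY' hy) (j * K + e y)) _ c hc fun σ hσ => ?_)
  set ow : ℕ → X := fun N => g (N / K ^ m - j * K) with how
  have o1 : ∀ y ∈ Y, ∀ N ∈ (σ y).I, ow N = y := fun y hy N hN => by
    simp only [how, (hσ y hy).1.pre N hN, Nat.add_sub_cancel_left, (he y hy).2]
  have o2 : ∀ N ∈ Y.biUnion fun y => (σ y).I, ow N ∈ Y ∧ N ∈ (σ (ow N)).I := fun N hN => by
    obtain ⟨y, hy, h⟩ := mem_biUnion.1 hN
    rw [o1 y hy N h]; exact ⟨hy, h⟩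
  have o3 : ∀ N ∈ Y.biUnion fun y => (σ y).I, N / K ^ (m + 1) = j := fun N hN => by
    rw [pow_succ, ← Nat.div_div_eq_div_mul, (hσ _ (o2 N hN).1).1.pre N (o2 N hN).2,
      add_comm, Nat.add_mul_div_right _ _ hK, Nat.div_eq_of_lt ((he _ (o2 N hN).1).1.trans_le hn),
      zero_add]
  have l1 : ∀ N ∈ Y.biUnion fun y => (σ y).I, (σ (ow N)).lv N ≤ m := fun N hN =>
    (hσ _ (o2 N hN).1).1.lv N (o2 N hN).2
  have := H ⟨Y.biUnion fun y => (σ y).I, fun N => (σ (ow N)).lv N, fun N => (σ (ow N)).sp N,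
    fun N k => if k = m + 1 then x else (σ (ow N)).z N k, fun N => (σ (ow N)).pt N⟩
    ⟨⟨o3, fun N hN => (l1 N hN).trans (Nat.le_succ _), fun N _ => if_pos rfl, fun N hN => ?_,
      fun N hN => (hσ _ (o2 N hN).1).1.sp N (o2 N hN).2, fun N hN k h1 h2 => ?_,
      fun N hN N' hN' k h1 h2 => ?_⟩, fun N hN => Nat.lt_succ_of_le (l1 N hN)⟩
  · rw [Wt.wt, prod_biUnion fun y hy y' hy' hne => disjoint_left.2 fun N h1 h2 =>
      hne ((o1 y hy N h1).symm.trans (o1 y' hy' N h2))] at this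
    refine le_trans (hμ.mono _ _ fun ω hω => ⟨hω.1.1, fun N hN => ⟨(hω.2 _ (o2 N hN).1 N
      (o2 N hN).2).1, fun k h1 h2 => ?_⟩⟩) (this.trans_eq (congrArg _
        (prod_congr rfl fun y hy => prod_congr rfl fun N hN => by simp only [o1 y hy N hN])))
    simp only [if_neg h2.ne]
    rcases Nat.lt_succ_iff_lt_or_eq.1 h2 with h3 | rfl
    · exact (hω.2 _ (o2 N hN).1 N (o2 N hN).2).2 k h1 h3
    · rw [(hσ _ (o2 N hN).1).1.root N (o2 N hN).2]; exact hω.1.2 _ (o2 N hN).1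
  · simp only [if_neg (Nat.lt_succ_of_le (l1 N hN)).ne]
    exact (hσ _ (o2 N hN).1).1.lf N (o2 N hN).2
  · simp only [if_neg h2.ne]
    rcases Nat.lt_succ_iff_lt_or_eq.1 h2 with h3 | rfl
    · rw [if_neg (by omega)]; exact (hσ _ (o2 N hN).1).1.ch N (o2 N hN).2 k h1 h3
    · rw [if_pos rfl, (hσ _ (o2 N hN).1).1.root N (o2 N hN).2]; exact hT _ (hY' (o2 N hN).1)
  · have hk : k < m + 1 := by
      by_contra hc
      exact h2 (div_pow_mono (not_lt.1 hc) ((o3 N hN).trans (o3 N' hN').symm))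
    simp only [if_neg hk.ne]
    by_cases ho : ow N = ow N'
    · have h3 := (o2 N' hN').2
      rw [← ho] at h3 ⊢
      exact (hσ _ (o2 N hN).1).1.sep N (o2 N hN).2 N' h3 k h1 h2
    · obtain rfl : k = m := by
        by_contra hc
        exact ho (by simp only [how, div_pow_mono (by omega : k + 1 ≤ m) h1])
      rw [(hσ _ (o2 N hN).1).1.root N (o2 N hN).2, (hσ _ (o2 N' hN').1).1.root N' (o2 N' hN').2]
      exact ⟨l1 N hN, ((hσ _ (o2 N hN).1).2 N (o2 N hN).2).trans_lt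
        (hs _ (o2 N hN).1 _ (o2 N' hN').1 ho)⟩

/-- the combinatorial numerics of the union bound at scale `m`. -/
structure Num (S : Sys X α κ) (K : ℕ) (cs vol nc g : ℕ → ℕ) (m : ℕ) : Prop where
  K1 : S.a1 < K
  K2 : S.r < K
  col_lt : ∀ y, S.col m y < nc m
  col_sep : ∀ y y', S.col m y = S.col m y' → y ≠ y' → cs m < S.d y y'
  cs_le : cs m ≤ S.sep m
  vol_ge : ∀ x, (univ.filter fun y => S.d x y ≤ S.ρ (m + 1)).card ≤ vol m
  g_pos : 0 < g m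
  nl0 : S.r * (vol m / g m + 1) ≤ S.nl m 0
  nlS : ∀ l, l + 1 < S.k0 → S.r * ((S.tm + 1) * S.nl m l / g m + 1) ≤ S.nl m (l + 1)

variable {vol nc g : ℕ → ℕ} {d t : ℕ} {E : α} {Z : κ} {V : Ω → ℕ → X → Prop}

/-- witnesses of trees with root `x` of scale `m`. -/
def Nd (S : Sys X α κ) (K : ℕ) (cs : ℕ → ℕ) (J : ℕ → X → Finset P) (m : ℕ) (x : X) (j : ℕ)
    (σ : Wt X P) : Prop := S.Ok K cs J m x j σ ∧ ∀ n ∈ σ.I, σ.lv n < m

lemma Num.card_le (N : S.Num K cs vol nc g m) {T : Finset X} (hT : ∀ y ∈ T, S.d x y ≤ S.ρ (m + 1)) :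
    T.card ≤ vol m :=
  (card_le_card fun y hy => mem_filter.2 ⟨mem_univ _, hT y hy⟩).trans (N.vol_ge x)

/-- groups of size `g`. -/
lemma exists_grp (T : Finset X) (x : X) {g : ℕ} (hg : 0 < g) : ∃ G : ℕ → Finset X,
    (∀ i, G i ⊆ T ∧ (G i).card ≤ g) ∧ ∀ (r : ℕ) (A : Finset X), A ⊆ T →
      r * (T.card / g + 1) < A.card → ∃ i < T.card / g + 1, ∃ Y ⊆ A, Y ⊆ G i ∧ Y.card = r + 1 := by
  classical
  obtain ⟨e, f, he⟩ := exists_num T x
  refine ⟨fun i => T.filter fun y => e y / g = i, fun i => ⟨filter_subset _ _, ?_⟩,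
    fun r A hA h => ?_⟩
  · refine (card_le_card_of_injOn (t := range g) (fun y => e y % g)
      (fun y _ => mem_range.2 (Nat.mod_lt _ hg)) fun y hy y' hy' h => ?_).trans (card_range g).le
    obtain ⟨h1, h2⟩ := mem_filter.1 hy
    obtain ⟨h3, h4⟩ := mem_filter.1 hy'
    rw [← (he y h1).2, ← (he y' h3).2, ← Nat.div_add_mod (e y) g, ← Nat.div_add_mod (e y') g, h2,
      h4, show e y % g = e y' % g from h]
  · obtain ⟨i, hi, h1⟩ := exists_lt_card_fiber_of_mul_lt_card_of_maps_to (s := A)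
      (t := range (T.card / g + 1)) (f := fun y => e y / g) (n := r) (fun y hy => mem_range.2
        (Nat.lt_succ_of_le (Nat.div_le_div_right (he y (hA hy)).1.le))) (by rwa [card_range, mul_comm])
    obtain ⟨Y, h2, h3⟩ := exists_subset_card_eq (Nat.succ_le_of_lt h1)
    exact ⟨i, mem_range.1 hi, Y, h2.trans (filter_subset _ _),
      h2.trans (filter_subset_filter _ hA), h3⟩

theorem dom_cov1 [Nonempty P] (hμ : Sub μ) (hq : ∀ m s v, 0 ≤ q m s v) (N : S.Num K cs vol nc g m)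
    (hV : ∀ ω y, V ω m y → Q ω m y → ∃ v ∈ J m y, Ht ω m (cs m) v) (h0 : 0 ≤ ε)
    (he : ∀ y, ∑ v ∈ J m y, q m (cs m) v ≤ ε) (h : S.Good d E Z (m + 1) t x) (ht : t ≤ S.tm) :
    Dom μ (fun ω => S.COV1 d E Z m x fun y => V ω m y ∧ Q ω m y) (S.Nd K cs J (m + 1) x j)
      (Wt.Real Ht Q (m + 1)) (Wt.wt q)
      ((S.k0 * nc m * (vol m / g m + 1) : ℕ) * (g m * ε) ^ (S.r + 1)) := by
  classical
  choose G hG1 hG2 using fun l c => exists_grp (S.T1 d E Z m x l c) x N.g_pos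
  have hT : ∀ l c, ∀ y ∈ S.T1 d E Z m x l c, S.d x y ≤ S.ρ (m + 1) ∧ S.col m y = c :=
    fun l c y hy => by
      simp only [T1, mem_filter] at hy
      exact ⟨hy.2.1.d_le, hy.2.2.1⟩
  have hv : ∀ l c, (S.T1 d E Z m x l c).card / g m ≤ vol m / g m := fun l c =>
    Nat.div_le_div_right (N.card_le fun y hy => (hT l c y hy).1)
  refine Dom.union_le hμ (range S.k0 ×ˢ range (nc m) ×ˢ range (vol m / g m + 1))
    (fun i ω => S.Sepd (fun y => y ∈ G i.1 i.2.1 i.2.2 ∧ Q ω m y ∧ V ω m y ∧ Q ω m y) (S.r + 1)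
      (cs m))
    (by positivity) (fun ω ⟨l, hl, c, hc⟩ => ?_) (fun i _ => dom_node hμ hq h0 N.K2
      (Nat.zero_lt_of_lt N.K2) (hG1 _ _ _).2 (fun y hy => (hT _ _ y ((hG1 _ _ _).1 hy)).1)
      fun y _ j => dom_leaf hμ (Nat.zero_lt_of_lt N.K2) le_rfl N.cs_le
        (fun ω h => hV ω y h.1 h.2) (he y))
    (by simp [mul_assoc])
  have hn : S.r * ((S.T1 d E Z m x l c).card / g m + 1) ≤ S.nl m l := by
    cases l with
    | zero => exact (Nat.mul_le_mul_left _ (Nat.succ_le_succ (hv 0 c))).trans N.nl0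
    | succ l =>
      exact (Nat.mul_le_mul_left _ (Nat.succ_le_succ (Nat.div_le_div_right
        ((card_T1 h (by omega : l < S.k0) c).trans
          (Nat.mul_le_mul_right _ (Nat.succ_le_succ ht)))))).trans (N.nlS l hl)
  obtain ⟨i, hi, Y, h1, h2, h3⟩ := hG2 l c S.r ((S.T1 d E Z m x l c).filter fun y =>
    V ω m y ∧ Q ω m y) (filter_subset _ _) ((hn.trans_lt hc).trans_eq (by congr))
  have h4 : ∀ y ∈ Y, S.col m y = c := fun y hy => (hT l c y (filter_subset _ _ (h1 hy))).2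
  obtain ⟨y, hy⟩ : Y.Nonempty := card_pos.1 (by omega)
  refine ⟨(l, c, i), by
    have := hv l c
    simp only [mem_product, mem_range]
    exact ⟨hl, h4 y hy ▸ N.col_lt y, by omega⟩, Y, h3, fun y hy => ⟨h2 hy, ?_⟩,
    fun y hy y' hy' => N.col_sep y y' ((h4 y hy).trans (h4 y' hy').symm)⟩
  exact ⟨(mem_filter.1 (h1 hy)).2.2, (mem_filter.1 (h1 hy)).2⟩

theorem dom_cov2 [Nonempty P] (hμ : Sub μ) (hq : ∀ m s v, 0 ≤ q m s v) (N : S.Num K cs vol nc g m)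
    (hV : ∀ ω y, V ω m y → Q ω m y → ∃ v ∈ J m y, Ht ω m (S.sep m) v) (h0 : 0 ≤ ε)
    (he : ∀ y, ∑ v ∈ J m y, q m (S.sep m) v ≤ ε) (h : S.Good d E Z (m + 1) t x) (ht : t ≤ S.tm) :
    Dom μ (fun ω => S.COV2 d E Z m x fun y => V ω m y ∧ Q ω m y) (S.Nd K cs J (m + 1) x j)
      (Wt.Real Ht Q (m + 1)) (Wt.wt q)
      (((nc m * ((S.tm + 1) * S.nl m (S.k0 - 1)) : ℕ) * ε) ^ (S.r + 1)) := fun R c hc H =>
  (hμ.mono _ _ fun ω hω => ⟨hω.1, Sepd.mono hω.2 fun y hy => ⟨hy.1, hy.2.2, hy.2⟩⟩).trans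
    (dom_node (T := S.T2 d E Z m x) (A := fun y ω => V ω m y ∧ Q ω m y) hμ hq h0 N.K2
      (Nat.zero_lt_of_lt N.K2)
      ((card_T2 h N.col_lt).trans (Nat.mul_le_mul_left _ (Nat.mul_le_mul_right _ (by omega))))
      (fun y hy => by
        simp only [T2, mem_filter] at hy
        exact hy.2.1.d_le)
      (fun y _ j => dom_leaf hμ (Nat.zero_lt_of_lt N.K2) N.cs_le le_rfl
        (fun ω h => hV ω y h.1 h.2) (he y))
      R c hc H)

lemma Ok.child (h : S.Ok K cs J m y j σ) :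
    S.Ok K cs J m y j σ ∧ ∀ n ∈ σ.I, S.sq σ n m ≤ S.sep m := ⟨h, fun n hn => by
  unfold sq; split_ifs with e; exacts [e ▸ (h.sp n hn).2, le_rfl]⟩

theorem dom_Wn [Nonempty P] (hμ : Sub μ) (hq : ∀ m s v, 0 ≤ q m s v) {e1 e2 : ℝ} {n : ℕ}
    (hn : n < K) (N : S.Num K cs vol nc g m)
    (hV : ∀ s ≤ S.sep m, ∀ ω y, V ω m y → Q ω m y → ∃ v ∈ J m y, Ht ω m s v)
    (h1 : 0 ≤ e1) (h2 : 0 ≤ e2) (h0 : 0 ≤ ε) (he1 : ∀ y, ∑ v ∈ J m y, q m (cs m) v ≤ e1)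
    (he2 : ∀ y, ∑ v ∈ J m y, q m (S.sep m) v ≤ e2) (h : S.Good d E Z (m + 1) t x) (ht : t ≤ S.tm)
    (ih : ∀ y j, S.Lv d E Z m S.k0 y → Dom μ (fun ω => S.W2 d E Z (V ω) (Q ω) m y)
      (S.Nd K cs J m y j) (Wt.Real Ht Q m) (Wt.wt q) ε) :
    Dom μ (fun ω => S.Wn d E Z (V ω) (Q ω) n m x) (S.Nd K cs J (m + 1) x j)
      (Wt.Real Ht Q (m + 1)) (Wt.wt q)
      ((S.k0 * nc m * (vol m / g m + 1) : ℕ) * (g m * e1) ^ (S.r + 1) +
        (((nc m * ((S.tm + 1) * S.nl m (S.k0 - 1)) : ℕ) * e2) ^ (S.r + 1) +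
        (vol m * ε) ^ (n + 1))) := by
  classical
  refine Dom.or hμ (fun _ h => h) (dom_cov1 hμ hq N (hV _ N.cs_le) h1 he1 h ht)
    (Dom.or hμ (fun _ h => h) (dom_cov2 hμ hq N (hV _ le_rfl) h2 he2 h ht) fun R c hc H => ?_)
  have hT : ∀ y ∈ univ.filter (S.Adm d E Z m x), S.Adm d E Z m x y := fun y hy =>
    (mem_filter.1 hy).2
  exact (hμ.mono _ _ fun ω hω => ⟨hω.1, Sepd.mono hω.2 fun y hy =>
    ⟨mem_filter.2 ⟨mem_univ _, hy.1⟩, hy.2⟩⟩).trans (dom_node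
      (A := fun y ω => S.W2 d E Z (V ω) (Q ω) m y) hμ hq h0 hn (Nat.zero_lt_of_lt hn)
      (N.card_le fun y hy => (hT y hy).d_le) (fun y hy => (hT y hy).d_le)
      (fun y hy j => (ih y j ((hT y hy).lv h)).imp fun σ hσ => hσ.1.child) R c hc H)

/-- **covisit trees are rare.** -/
theorem dom_W2 [Nonempty P] (hμ : Sub μ) (hq : ∀ m s v, 0 ≤ q m s v) {e1 e2 ε : ℕ → ℝ}
    (hd : S.k0 + S.oc + d ≤ S.tm) (N : ∀ k < m, S.Num K cs vol nc g k)
    (hV : ∀ k < m, ∀ s ≤ S.sep k, ∀ ω y, V ω k y → Q ω k y → ∃ v ∈ J k y, Ht ω k s v)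
    (h1 : ∀ k, 0 ≤ e1 k) (h2 : ∀ k, 0 ≤ e2 k)
    (h0 : ∀ k, 0 ≤ ε k) (he1 : ∀ k < m, ∀ y, ∑ v ∈ J k y, q k (cs k) v ≤ e1 k)
    (he2 : ∀ k < m, ∀ y, ∑ v ∈ J k y, q k (S.sep k) v ≤ e2 k)
    (hε : ∀ k < m, (S.k0 * nc k * (vol k / g k + 1) : ℕ) * (g k * e1 k) ^ (S.r + 1) +
      (((nc k * ((S.tm + 1) * S.nl k (S.k0 - 1)) : ℕ) * e2 k) ^ (S.r + 1) +
      (vol k * ε k) ^ (S.a1 + 1)) ≤ ε (k + 1))
    (h : S.Good d E Z m t x) (ht : t ≤ S.tm) :
    Dom μ (fun ω => S.W2 d E Z (V ω) (Q ω) m x) (S.Nd K cs J m x j) (Wt.Real Ht Q m) (Wt.wt q)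
      (ε m) := by
  induction m generalizing t x j with
  | zero =>
    exact fun R c hc _ => (hμ.mono _ (fun _ => False) fun ω hω => hω.2).trans
      (hμ.bot.trans (mul_nonneg hc (h0 0)))
  | succ m ih =>
    have n := N m (by omega)
    exact (dom_Wn hμ hq n.K1 n (hV m (by omega)) (h1 m) (h2 m) (h0 m) (he1 m (by omega))
      (he2 m (by omega)) h ht fun y j hy => ih (fun k hk => N k (by omega))
        (fun k hk => hV k (by omega)) (fun k hk => he1 k (by omega)) (fun k hk => he2 k (by omega))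
        (fun k hk => hε k (by omega)) hy.good hd).le (hε m (by omega))

variable {U : Ω → ℕ → X → Prop} {L : Ω → X → Prop}

theorem dom_Fn [Nonempty P] (hμ : Sub μ) (hq : ∀ m s v, 0 ≤ q m s v) {n v : ℕ} (hn : n < K)
    (hv : (univ.filter fun y => S.d x y ≤ S.ρ (m + 1)).card ≤ v) (h0 : 0 ≤ ε)
    (ih : ∀ y j, Dom μ (fun ω => S.Fl (U ω) (L ω) m y) (S.Ok K S.sep J m y j)
      (Wt.Real Ht (fun ω => S.Iso (U ω)) m) (Wt.wt q) ε) :
    Dom μ (fun ω => S.Fn (U ω) (L ω) n m x) (S.Ok K S.sep J (m + 1) x j)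
      (Wt.Real Ht (fun ω => S.Iso (U ω)) (m + 1)) (Wt.wt q) ((v * ε) ^ (n + 1)) := by
  classical
  exact fun R c hc H => (hμ.mono _ _ fun ω hω => ⟨hω.1, Sepd.mono hω.2 fun y hy =>
    ⟨mem_filter.2 ⟨mem_univ _, hy.1⟩, hy.2⟩⟩).trans (dom_node
      (A := fun y ω => S.Fl (U ω) (L ω) m y) (Q := fun ω => S.Iso (U ω)) hμ hq h0 hn
      (Nat.zero_lt_of_lt hn) hv (fun y hy => (mem_filter.1 hy).2)
      (fun y _ j => (ih y j).imp fun σ hσ => hσ.child) R c hc fun σ hσ => H σ hσ.1)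

/-- **failing trees are rare** (leaves `L`, junk `U`; both may be random).  Take `J k y = ∅` for
`k > 0` to get `lv n = 0` from `Ok.lf`. -/
theorem dom_Fl [Nonempty P] (hμ : Sub μ) (hq : ∀ m s v, 0 ≤ q m s v) {ε : ℕ → ℝ} (hK : S.a1 < K)
    (hv : ∀ k < m, ∀ x, (univ.filter fun y => S.d x y ≤ S.ρ (k + 1)).card ≤ vol k)
    (hL : ∀ ω y, L ω y → ∃ v ∈ J 0 y, Ht ω 0 (S.sep 0) v) (h0 : ∀ k, 0 ≤ ε k)
    (he : ∀ y, ∑ v ∈ J 0 y, q 0 (S.sep 0) v ≤ ε 0)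
    (hε : ∀ k < m, (vol k * ε k) ^ (S.a1 + 1) ≤ ε (k + 1)) :
    Dom μ (fun ω => S.Fl (U ω) (L ω) m x) (S.Ok K S.sep J m x j)
      (Wt.Real Ht (fun ω => S.Iso (U ω)) m) (Wt.wt q) (ε m) := by
  induction m generalizing x j with
  | zero =>
    exact (dom_leaf hμ (Nat.zero_lt_of_lt hK) le_rfl le_rfl (fun ω => hL ω x) (he x)).imp
      fun σ hσ => hσ.1
  | succ m ih =>
    exact (dom_Fn hμ hq hK (hv m (by omega) x) (h0 m) fun y j => ih (fun k hk => hv k (by omega))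
      fun k hk => hε k (by omega)).le (hε m (by omega))

theorem Wn.mono {V V' Q Q' : ℕ → X → Prop} {n : ℕ} (h : S.Wn d E Z V Q n m x)
    (hV : ∀ m y, V m y → V' m y) (hQ : ∀ m y, Q m y → Q' m y) : S.Wn d E Z V' Q' n m x :=
  h.imp (fun h => h.mono fun y hy => ⟨hV m y hy.1, hQ m y hy.2⟩) fun h => h.imp
    (fun h => h.mono fun y hy => ⟨hV m y hy.1, hQ m y hy.2⟩)
    fun h => Sepd.mono h fun y hy => ⟨hy.1, hQ m y hy.2.1, hy.2.2.mono hV hQ⟩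

lemma wn_loc {V Q : ℕ → X → Prop} {n R : ℕ} {x0 : X} (h : S.Wn d E Z V Q n m x)
    (hx : S.d x0 x + S.loc (m + 1) ≤ R) (ih : ∀ y, S.W2 d E Z V Q m y → S.d x0 y + S.loc m ≤ R →
      S.W2 d E Z (fun k y => V k y ∧ S.d x0 y + S.loc k ≤ R) Q m y) :
    S.Wn d E Z (fun k y => V k y ∧ S.d x0 y + S.loc k ≤ R) Q n m x := by
  classical
  have key : ∀ y, S.Adm d E Z m x y → S.d x0 y + S.loc m ≤ R := fun y hy => by
    have := hy.d_le
    have := S.d_tri x0 x y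
    simp only [Sys.loc] at hx; omega
  rcases h with ⟨l, hl, c, h⟩ | h | h
  · refine .inl ⟨l, hl, c, h.trans_le (card_le_card fun y hy => ?_)⟩
    simp only [mem_filter, T1] at hy ⊢
    exact ⟨hy.1, ⟨hy.2.1, key y hy.1.2.1⟩, hy.2.2⟩
  · refine .inr (.inl (Sepd.mono h fun y hy => ⟨hy.1, ⟨hy.2.1, key y ?_⟩, hy.2.2⟩))
    have := hy.1
    simp only [mem_filter, T2] at this
    exact this.2.1
  · exact .inr (.inr (Sepd.mono h fun y hy => ⟨hy.1, hy.2.1, ih y hy.2.2 (key y hy.1)⟩))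

/-- only cells below the root matter. -/
theorem W2.loc {V Q : ℕ → X → Prop} {R : ℕ} {x0 : X} (h : S.W2 d E Z V Q m x)
    (hx : S.d x0 x + S.loc m ≤ R) :
    S.W2 d E Z (fun k y => V k y ∧ S.d x0 y + S.loc k ≤ R) Q m x := by
  induction m generalizing x with
  | zero => exact h
  | succ m ih => exact wn_loc (n := S.a1) h hx fun _ => ih

theorem Wn.loc {V Q : ℕ → X → Prop} {n R : ℕ} {x0 : X} (h : S.Wn d E Z V Q n m x)
    (hx : S.d x0 x + S.loc (m + 1) ≤ R) :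
    S.Wn d E Z (fun k y => V k y ∧ S.d x0 y + S.loc k ≤ R) Q n m x := wn_loc h hx fun _ => W2.loc

end Sys

end Crest.Agent.N337.Rg
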