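import Crest.Agent.N337.W.TP2
import Crest.Agent.N337.Rg.Cnt

/-!
# Row 337 (helper75): base `K` addresses form a `WN.Tree`.

`ell K u v` = least `k` with `u / K ^ k = v / K ^ k`.  One inequality
`a v * a u * g v u ≤ dl K (ell K u v)` gives all the static data `WN.Tgt` of (TP).
-/

set_option autoImplicit false

namespace Crest.Agent.N337.Rg

open Finset

/-- level of the last common ancestor. -/
noncomputable def ell (K u v : ℕ) : ℕ := sInf {k | u / K ^ k = v / K ^ k}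

variable {K u v k m j : ℕ}

lemma ell_ne (hK : 2 ≤ K) (u v : ℕ) : {k | u / K ^ k = v / K ^ k}.Nonempty :=
  ⟨u + v, by
    have := Nat.lt_pow_self (n := u + v) hK
    simp only [Set.mem_setOf_eq]
    rw [Nat.div_eq_of_lt (by omega), Nat.div_eq_of_lt (by omega)]⟩

lemma ell_le_iff (hK : 2 ≤ K) : ell K u v ≤ k ↔ u / K ^ k = v / K ^ k :=
  ⟨fun h => div_pow_mono h (Nat.sInf_mem (ell_ne hK u v)), fun h => Nat.sInf_le h⟩

lemma ell_comm : ell K u v = ell K v u := by simp only [ell, eq_comm]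

lemma ell_pos (hK : 2 ≤ K) (h : u ≠ v) : 0 < ell K u v :=
  Nat.pos_of_ne_zero fun e => h (by simpa using (ell_le_iff hK).1 e.le)

/-- the top differing digit. -/
lemma ell_spec (hK : 2 ≤ K) (h : ell K u v = k + 1) :
    u / K ^ (k + 1) = v / K ^ (k + 1) ∧ u / K ^ k ≠ v / K ^ k :=
  ⟨(ell_le_iff hK).1 h.le, fun e => by have := (ell_le_iff hK).2 e; omega⟩

lemma ell_mono (hK : 2 ≤ K) (u w v : ℕ) (h1 : u < w) (h2 : w < v) : ell K w v ≤ ell K u v := by
  have h := (ell_le_iff hK (u := u) (v := v)).1 le_rfl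
  exact (ell_le_iff hK).2 (le_antisymm (Nat.div_le_div_right h2.le)
    (h ▸ Nat.div_le_div_right h1.le))

lemma card_ell (hK : 2 ≤ K) (Y : Finset ℕ) (u k : ℕ) :
    (Y.filter fun v => ell K u v = k).card ≤ K ^ k := by
  have hp : 0 < K ^ k := by positivity
  refine (card_le_card_of_injOn (t := range (K ^ k)) (fun v => v % K ^ k)
    (fun v _ => mem_range.2 (Nat.mod_lt _ hp)) fun v hv w hw h => ?_).trans (card_range _).le
  have h1 := (ell_le_iff hK).1 (mem_filter.1 hv).2.le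
  have h2 := (ell_le_iff hK).1 (mem_filter.1 hw).2.le
  rw [← Nat.div_add_mod v (K ^ k), ← Nat.div_add_mod w (K ^ k), ← h1, ← h2,
    show v % K ^ k = w % K ^ k from h]

lemma geo_le (i n : ℕ) : ∑ k ∈ Ico (i + 1) n, (1 / 2 : ℝ) ^ k ≤ (1 / 2) ^ i := by
  refine (geom_sum_Ico_le_of_lt_one (by norm_num) (by norm_num)).trans (le_of_eq ?_)
  rw [pow_succ]; ring

/-- sums over addresses, level by level. -/
lemma sum_ell (hK : 2 ≤ K) (Y : Finset ℕ) (u i : ℕ) {φ : ℕ → ℝ} {ψ : ℕ → ℝ} {c : ℝ} (hc : 0 ≤ c)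
    (h1 : ∀ v ∈ Y, i < ell K u v ∧ φ v ≤ ψ (ell K u v)) (h0 : ∀ k, 0 ≤ ψ k)
    (h2 : ∀ k, i < k → (K : ℝ) ^ k * ψ k ≤ c * (1 / 2) ^ k) : ∑ v ∈ Y, φ v ≤ c * (1 / 2) ^ i := by
  have hm : ∀ v ∈ Y, ell K u v ∈ Ico (i + 1) (Y.sup (ell K u) + 1) := fun v hv =>
    mem_Ico.2 ⟨(h1 v hv).1, Nat.lt_succ_of_le (le_sup hv)⟩
  rw [← sum_fiberwise_of_maps_to hm]
  refine le_trans (sum_le_sum fun k hk => ?_) ((mul_sum _ _ c).ge.trans
    (mul_le_mul_of_nonneg_left (geo_le i _) hc))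
  refine (sum_le_card_nsmul _ _ (ψ k) fun v hv => (mem_filter.1 hv).2 ▸
    (h1 v (mem_filter.1 hv).1).2).trans (le_trans ?_ (h2 k (mem_Ico.1 hk).1))
  rw [nsmul_eq_mul]
  exact mul_le_mul_of_nonneg_right (by exact_mod_cast card_ell hK Y u k) (h0 k)

/-- the admissible size of `a a g` at level `k`. -/
noncomputable def dl (K k : ℕ) : ℝ := (1 / (2 * K)) ^ (4 ^ (k + 1))
/-- row sums. -/
noncomputable def rr (K i : ℕ) : ℝ := (1 / (2 * K)) ^ (4 ^ (i + 2) - (i + 1)) / 36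
/-- weights. -/
noncomputable def ww (i : ℕ) : ℝ := (1 / 2) ^ (i + 2)

lemma le_four (i k : ℕ) (h : i < k) : 4 ^ (i + 2) - (i + 1) + k ≤ 4 ^ (k + 1) := by
  induction k, h using Nat.le_induction with
  | base =>
    have := Nat.lt_pow_self (n := i + 2) (show 1 < 4 by norm_num)
    exact (Nat.sub_add_cancel (by omega)).le
  | succ k _ ih => rw [pow_succ 4 (k + 1)]; have := Nat.one_le_pow (k + 1) 4 (by norm_num); omega

lemma exp_le (k : ℕ) : (k + 1) * 2 ^ (k + 3) + (k + 1) ≤ 4 ^ (k + 2) := by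
  have h1 : k + 1 ≤ 2 ^ k := Nat.lt_two_pow_self
  have h2 : 4 ^ (k + 2) = 16 * (2 ^ k * 2 ^ k) := by
    rw [← mul_pow, pow_add]; norm_num [mul_comm]
  have h3 : 1 ≤ 2 ^ k := Nat.one_le_two_pow
  rw [h2, pow_add]; nlinarith

lemma dl_le (hK : 2 ≤ K) {i : ℕ} (h : i < k) :
    (K : ℝ) ^ k * dl K k ≤ 36 * rr K i * (1 / 2) ^ k := by
  have hK' : (2 : ℝ) ≤ K := by exact_mod_cast hK
  have h0 : (0 : ℝ) < 1 / (2 * K) := by positivity
  have h1 : (1 : ℝ) / (2 * K) ≤ 1 := by rw [div_le_one (by positivity)]; linarith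
  have e : (K : ℝ) ^ k * (1 / (2 * K)) ^ k = (1 / 2) ^ k := by
    rw [← mul_pow]; congr 1; field_simp
  rw [dl, rr, mul_div_cancel₀ _ (by norm_num), ← e, mul_left_comm, ← pow_add]
  exact mul_le_mul_of_nonneg_left (pow_le_pow_of_le_one h0.le h1 (le_four i k h)) (by positivity)

lemma rr_pos (hK : 2 ≤ K) (i : ℕ) : 0 < rr K i := by
  have : (0 : ℝ) < K := by exact_mod_cast (by omega : 0 < K)
  unfold rr; positivity

lemma rr_le (hK : 2 ≤ K) (i : ℕ) : 36 * rr K i ≤ 1 := by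
  have hK' : (2 : ℝ) ≤ K := by exact_mod_cast hK
  rw [rr, mul_div_cancel₀ _ (by norm_num)]
  exact pow_le_one₀ (by positivity) (by rw [div_le_one (by positivity)]; linarith)

lemma link_le (hK : 2 ≤ K) (i : ℕ) : (6 * √(rr K i)) ^ ww i ≤ (1 / (2 * K)) ^ (i + 1) := by
  have hK' : (2 : ℝ) ≤ K := by exact_mod_cast hK
  have h0 : (0 : ℝ) < 1 / (2 * K) := by positivity
  have h1 : (1 : ℝ) / (2 * K) ≤ 1 := by rw [div_le_one (by positivity)]; linarith
  have e : 6 * √(rr K i) = √(36 * rr K i) := by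
    rw [Real.sqrt_mul (by norm_num), show (36 : ℝ) = 6 ^ 2 by norm_num, Real.sqrt_sq (by norm_num)]
  rw [e, rr, mul_div_cancel₀ _ (by norm_num), Real.sqrt_eq_rpow, ← Real.rpow_natCast,
    ← Real.rpow_mul h0.le, ← Real.rpow_mul h0.le, ← Real.rpow_natCast]
  refine Real.rpow_le_rpow_of_exponent_ge h0 h1 ?_
  have h2 : ((i + 1) * 2 ^ (i + 3) : ℕ) ≤ ((4 ^ (i + 2) - (i + 1) : ℕ) : ℝ) := by
    exact_mod_cast (by have := exp_le i; omega)
  have e2 : (1 / 2 : ℝ) * ww i * 2 ^ (i + 3) = 1 := by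
    rw [ww, ← pow_succ', ← mul_pow]; norm_num
  have h3 : (0 : ℝ) ≤ 1 / 2 * ww i := by unfold ww; positivity
  push_cast at h2 ⊢
  nlinarith [mul_le_mul_of_nonneg_right h2 h3]

/-- **the static data of (TP) for base `K` addresses.** -/
theorem tgt (hK : 2 ≤ K) {I : Finset ℕ} (hI : ∀ n ∈ I, n / K ^ m = j) {g : ℕ → ℕ → ℝ}
    {a θ : ℕ → ℝ} {κ : ℝ} (g0 : ∀ u v, 0 ≤ g u v) (ha : ∀ v, 6 ≤ a v)
    (hg : ∀ u ∈ I, ∀ v ∈ I, u ≠ v → a v * a u * g v u ≤ dl K (ell K u v))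
    (hθ : ∀ v, 0 < θ v) (hκ : κ < 1) (hκ0 : 0 ≤ κ)
    (hθ' : ∀ v ∈ I, θ v * (6 / a v) ^ (1 / 4 : ℝ) ≤ κ) :
    WN.Tgt I g (ell K) m (rr K) ww a (1 / 4) (1 / 4) κ θ fun _ _ => True := by
  have hK' : (2 : ℝ) ≤ K := by exact_mod_cast hK
  have d0 : ∀ k, 0 ≤ dl K k := fun k => by unfold dl; positivity
  refine ⟨⟨ell_mono hK, fun i _ => rr_pos hK i, fun i _ => rr_le hK i, fun i _ Y hY h v hv => ?_,
    fun v _ => ha v, fun v hv => ?_⟩, g0, fun v => le_trans (by norm_num) (ha v),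
    fun i => by unfold ww; positivity, by norm_num, by norm_num, ?_, hθ, hκ, fun u hu => ?_⟩
  · refine (sum_ell hK _ v i (ψ := fun k => dl K k / 36) (rr_pos hK i).le (fun u hu => ?_)
      (fun k => div_nonneg (d0 k) (by norm_num)) fun k hk => by
        rw [← mul_div_assoc]; linarith [dl_le hK hk]).trans
      (mul_le_of_le_one_right (rr_pos hK i).le (pow_le_one₀ (by norm_num) (by norm_num)))
    obtain ⟨h1, h2⟩ := mem_erase.1 hu
    refine ⟨(lt_or_gt_of_ne h1).elim (fun k => ell_comm ▸ h u h2 v hv k) (h v hv u h2), ?_⟩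
    have := hg u (hY h2) v (hY hv) h1
    rw [ell_comm] at this
    have h3 : 36 ≤ a v * a u := by nlinarith [ha u, ha v]
    nlinarith [g0 v u]
  · refine (sum_ell hK _ v 0 (ψ := dl K) zero_le_one (fun u hu => ?_) d0 fun k hk =>
      (dl_le hK hk).trans (mul_le_mul_of_nonneg_right (rr_le hK 0) (by positivity))).trans (by simp)
    obtain ⟨h1, h2⟩ := mem_erase.1 hu
    exact ⟨ell_pos hK h1.symm, ell_comm ▸ hg u h2 v hv h1⟩
  · have : ∑ i ∈ range m, ww i ≤ 1 / 2 := by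
      have := geo_le 1 (m + 2)
      rwa [sum_Ico_eq_sum_range, pow_one, show m + 2 - (1 + 1) = m by omega,
        sum_congr rfl fun i _ => by rw [add_comm]] at this
    linarith
  · refine (sum_ell hK _ u 0 (ψ := fun k => κ * (1 / (2 * K)) ^ k) hκ0 (fun v hv => ?_)
      (fun k => by positivity) fun k _ => le_of_eq ?_).trans (by simp)
    · obtain ⟨h1, h2, -⟩ := mem_filter.1 hv
      have h3 := ell_pos hK h2.ne
      have h4 : ell K u v ≤ m := (ell_le_iff hK).2 ((hI u hu).trans (hI v h1).symm)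
      refine ⟨h3, ?_⟩
      obtain ⟨i, hi⟩ : ∃ i, ell K u v = i + 1 := ⟨_, (Nat.succ_pred_eq_of_pos h3).symm⟩
      have f0 : ∀ i, 0 ≤ (6 * √(rr K i)) ^ ww i := fun i => by positivity
      have f1 : ∀ i, (6 * √(rr K i)) ^ ww i ≤ 1 := fun i => (link_le hK i).trans
        (pow_le_one₀ (by positivity) (by rw [div_le_one (by positivity)]; linarith))
      rw [WN.eta, ← mul_assoc, ← mul_prod_erase _ _ (mem_range.2 (by omega : i < m)),
        if_pos (by omega), hi]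
      refine mul_le_mul (hθ' v h1) ((mul_le_of_le_one_right (f0 i) (prod_le_one
        (fun l _ => by split_ifs; exacts [f0 l, zero_le_one])
        fun l _ => by split_ifs; exacts [f1 l, le_rfl])).trans (link_le hK i))
        (mul_nonneg (f0 i) (prod_nonneg fun l _ => by split_ifs; exacts [f0 l, zero_le_one])) hκ0
    · rw [mul_left_comm, ← mul_pow]; congr 2; field_simp

end Crest.Agent.N337.Rg
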