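import Crest.Agent.N337.Rg.Cov
import Crest.Agent.N337.Ld.Jnk

/-!
# Row 337 (helper75): the claims `F3`, `N3` from a Green bound and from slow visits
-/

set_option autoImplicit false
set_option linter.unusedSectionVars false
set_option maxHeartbeats 400000

namespace Crest.Agent.N337.Rg

open Finset Crest.Agent.N337.Rep Crest.Agent.N337.Gas Crest.Agent.N337.G4 Crest.Agent.N337.M
open Crest.Agent.N337.Ld (pb JC PC EG EK EH EU Cls Nr Ad Std)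
open Crest.Agent.N337.Pc (mkE)

variable {Λ : Type} [Fintype Λ] [DecidableEq Λ] {T : ℕ} [NeZero T]

section bridge
variable {ex ey : Fin T → Λ} {p : Fin T → ℝ} {b : Fin T × Λ → ℝ} {μ D u : Lp T Λ → ℝ}

lemma av_mk {Γ : Type} [Fintype Γ] [DecidableEq Γ] (D : Γ → ℝ) (X : Finset Γ) (f : Finset Γ → ℝ) :
    Pe.av D X f = G4.mk D (fun g => 1 - D g) X f := (Ld.sum_bw D X f).symm

lemma J_eq (F : Om T Λ → ℝ) : Ld.J ex ey p b μ F =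
    NuF ex ey p b (fun g => μ g * ub b g) (fun g => (1 - μ g) * ub b g) F := by
  simp only [Ld.J, NuF, av_mk]
  exact sum_congr rfl fun ξ _ => congrArg _ (mk_mark μ (fun g => 1 - μ g) _ fun C B => F (ξ, C, B))

lemma Zn_one : Zn ex ey p b (fun g => μ g * ub b g) (fun g => (1 - μ g) * ub b g) = 1 :=
  Eq.trans (sum_congr rfl fun ξ _ => by rw [prod_eq_one fun g _ => by ring, mul_one]) (sum_Pw p)

lemma Zn_two : Zn ex ey p b D (fun g => u g + ub b g) = gZ (qq ex ey p) fun g => u g + D g := by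
  rw [gZ_qq]
  exact sum_congr rfl fun ξ _ => congrArg _ (prod_congr rfl fun g _ => by ring)

lemma two_eq (hp : ∀ s, 0 ≤ p s ∧ p s ≤ 1) (F : Finset (Lp T Λ) → Finset (Lp T Λ) → ℝ) :
    ∑ w, qq ex ey p w * G4.mk D u w (fun B => mkE (Pw p) (L ex ey) (ub b) w fun C => F (w ∪ C) B) =
      NuF ex ey p b D (fun g => u g + ub b g) fun ω => F ω.2.1 ω.2.2 := by
  have e := fun ξ => mk_merge (a := ub b) (c := fun g => 1 - ub b g) D u (L ex ey ξ) F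
  simp only [NuF, ← e, ← mk_mul (r := qq ex ey p _), qq_mkE hp]
  simp only [G4.mk, mul_sum, prod_const_one, one_mul]
  rw [sum_congr rfl fun w _ => sum_comm, sum_comm]
  refine sum_congr rfl fun ξ _ => ?_
  rw [← sum_subset (subset_univ (L ex ey ξ).powerset) fun A _ h => by
    rw [mem_powerset] at h; simp [h]]
  refine sum_congr rfl fun w hw => sum_congr rfl fun B _ => ?_
  rw [if_pos (mem_powerset.1 hw)]
  simp only [mul_sum]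
  exact sum_congr rfl fun C _ => by ring

end bridge

section gas
variable {Γ : Type} [Fintype Γ] [DecidableEq Γ] {q : Finset Γ → ℝ} {D u : Γ → ℝ}

lemma ex_two (φ : Finset Γ → Finset Γ → ℝ) :
    Op.ex (nu (qL q) (Pc.two u D)) (fun X => φ (fg X) (fg (Pc.hi X))) =
      (∑ w, q w * G4.mk D u w (φ w)) / gZ q fun g => u g + D g := by
  rw [ex_nu, gZ_forget, Pc.tot_two]
  congr 1
  simp only [G4.mk, mul_sum]
  rw [G4.sum_pair, Pc.sum_lab]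
  refine sum_congr rfl fun w _ => sum_congr rfl fun A _ => ?_
  rw [Pc.gw_lab, Pc.fg_lab, Pc.fg_hi_lab]
  split_ifs with hd
  · rw [union_sdiff_cancel_left hd]; ring
  · simp

lemma ex_one (φ : Finset Γ → Finset Γ → ℝ) : Op.ex (nu q D) (fun w => φ w w) =
    (∑ w, q w * G4.mk D (fun _ => 0) w (φ w)) / gZ q fun g => 0 + D g := by
  simp only [zero_add]
  rw [ex_nu]
  congr 1
  refine sum_congr rfl fun w _ => ?_
  rw [G4.mk, sum_eq_single w, gw, sdiff_self]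
  · simp [mul_assoc]
  · intro B hB hne
    obtain ⟨g, hg⟩ := sdiff_nonempty.2 fun k => hne (subset_antisymm (mem_powerset.1 hB) k)
    rw [prod_eq_zero hg rfl]; ring
  · simp

end gas

variable {G : Bs T Λ} {y y' Y e : ℝ} {μ W D u : Lp T Λ → ℝ} {s : Cfg T Λ} {x : Finset (Lp T Λ)}

lemma PC_eq (hs : G.Val s) (hx : G.Val (s.add x)) (f : Finset (Lp T Λ) → ℝ) :
    PC G Y (s.add x) f = mkE (Pw (G.pn s)) (L G.ex G.ey) (ub (G.mdl Y s).b) x f := by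
  rw [Ld.mkE_eq_JC (μ := fun _ => 1) hs hx fun g => (mul_one _).symm, JC, Ld.J_mark fun _ => f]
  simp only [PC, mul_one]

lemma mdl_fld (h0 : 0 ≤ Y) (h1 : Y < 1) (s : Cfg T Λ) : Arc.Fld (G.mdl Y s).b :=
  ⟨Ld.bt_mem h0 h1.le s, fun x => by simp only [Bs.mdl, kill, Top.bt]; split_ifs <;> simp [h1]⟩

lemma alive {g : Lp T Λ} (h : s.u W g ≠ 0) : ¬ Hit s.K g := fun k => h (if_pos k)

/-- the down loops are `w0 a`, the new pins are `B0 a ⊆ w0 a`. -/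
theorem EG_two {A0 : Type} [Fintype A0] {ν : A0 → ℝ} {w0 B0 : A0 → Finset (Lp T Λ)}
    (hG : G.Ok) (hs : G.Val s) (hv : ∀ a, ν a ≠ 0 → G.Val (s.add (w0 a)))
    (hD : ∀ g, 0 ≤ D g) (hu : ∀ g, 0 ≤ u g) (f : Finset (Lp T Λ) → Finset (Lp T Λ))
    (hν : ∀ φ : Finset (Lp T Λ) → Finset (Lp T Λ) → ℝ, Op.ex ν (fun a => φ (w0 a) (B0 a)) =
      (∑ w, G.q s w * G4.mk D u w (φ w)) / gZ (G.q s) fun g => u g + D g)
    {P : Finset (Lp T Λ) → Finset (Lp T Λ) → Prop}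
    (h : Nu G.ex G.ey (G.pn s) (G.mdl Y s).b D (fun g => u g + ub (G.mdl Y s).b g)
      (fun ω => P ω.2.1 (f ω.2.2)) ≤
      Zn G.ex G.ey (G.pn s) (G.mdl Y s).b D (fun g => u g + ub (G.mdl Y s).b g) * e) :
    pb (EG G Y (fun _ => 0) s ν w0 fun a _ => f (B0 a)) (fun ω => P (ω.1 ∪ ω.2.1) ω.2.2) ≤ e := by
  classical
  have key := hν fun w B => mkE (Pw (G.pn s)) (L G.ex G.ey) (ub (G.mdl Y s).b) w
    fun C => Op.ind (fun B => P (w ∪ C) (f B)) B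
  rw [show G.q s = qq G.ex G.ey (G.pn s) from rfl,
    two_eq (hG.pn s) fun S B => Op.ind (fun B => P S (f B)) B] at key
  rw [Zn_two, mul_comm, ← div_le_iff₀ (Gas.gZ_pos (cpt_qq (hG.pn s)) fun g =>
    add_nonneg (hu g) (hD g))] at h
  refine le_trans (le_of_eq ?_) (key.trans_le h)
  refine Op.ex_congr fun a ha => ?_
  rw [← PC_eq hs (hv a ha), ← Ld.JC_purple (μ := fun _ => 0)]
  rfl

variable {X α κ : Type} [Fintype X] [DecidableEq X] [SemilatticeSup α] [Preorder κ]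

namespace Cx
variable (c : Cx T Λ X) (I : Ins T Λ X α κ) (G)

/-- the same data with another root. -/
def rt (x : X) : Cx T Λ X := { c with x := x }

/-- the junk of the final state. -/
def UU (I : Ins T Λ X α κ) (d : ℕ) (s : Cfg T Λ) (A : Finset (Lp T Λ)) : ℕ → X → Prop :=
  I.S.Jk d (I.pa s.e ⊔ I.pa A) (I.kz s.Z)

/-- the class of the final state. -/
def RR (d : ℕ) (F : Finset X) (R : ℕ) (s : Cfg T Λ) (A : Finset (Lp T Λ)) : Prop :=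
  Cls I.S d (I.pa s.e ⊔ I.pa A) (I.kz s.Z) c.μ I.S.tm F R

/-- **Green bound** in the configuration `s`. -/
def GC (Y : ℝ) (d : ℕ) (F : Finset X) (R : ℕ) (s : Cfg T Λ) : Prop :=
  c.GH I.S G.ex G.ey (G.pn s) (G.mdl Y s).b (c.RR I d F R s) (UU I d s)

/-- **visits** of isolated cells by alive loops are seen at the candidate points. -/
def VC (d : ℕ) (s : Cfg T Λ) : Prop :=
  ∀ k < c.μ, ∀ ξ A B y, Pw (G.pn s) ξ ≠ 0 → A ⊆ L G.ex G.ey ξ → B ⊆ A → (∀ g ∈ B, ¬ Hit s.K g) →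
    Nr I.S {y} (I.S.loc k) (I.pa B) → I.S.Iso (UU I d s A) k y → ∃ v ∈ c.J0 k y, ∃ g ∈ B, v ∈ g.2

/-- small loops have small weight. -/
def Sm (S : Sys X α κ) (D : Lp T Λ → ℝ) (Y : ℝ) : Prop :=
  ∀ k < c.μ, ∀ r ≤ S.sep k, ∀ v g, v ∈ g.2 → ¬ c.Lng S k r v g → D g ≤ c.τ k r * yw Y g

/-- the alive points of `U` are far from the cells below the root in which no octant dies. -/
def UL (s : Cfg T Λ) (U : Finset (Fin T × Λ)) (Z' : κ) : Prop :=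
  ∀ k < c.μ, ∀ y, I.S.d c.x y + I.S.loc k ≤ I.S.loc c.μ →
    I.S.oct k Z' y ≤ I.S.oct k (I.kz s.Z) y → ∀ v ∈ c.J0 k y, ∀ u ∈ U, u ∉ s.Z →
      c.Far I.S k (I.S.sep k) v u

/-- a bound for the root event `Wq`. -/
def Bd (S : Sys X α κ) (Wq : (ℕ → X → Prop) → (ℕ → X → Prop) → Prop) (e : ℝ) : Prop :=
  ∀ p b m n R0 U Mk V, c.Hyp S G.ex G.ey p b m n R0 U Mk V →
    Nu G.ex G.ey p b m n (fun ω => R0 ω.2.1 ∧ Wq (V ω) (S.Iso (U ω.2.1))) ≤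
      Zn G.ex G.ey p b m n * e

variable {c I G} {d R : ℕ} {F : Finset X} {Wq : (ℕ → X → Prop) → (ℕ → X → Prop) → Prop} {Z' : κ}
  {U : Finset (Fin T × Λ)}

lemma pa_ins (E : α) (A : Finset (Lp T Λ)) (g : Lp T Λ) : E ⊔ I.pa A ≤ E ⊔ I.pa (insert g A) :=
  sup_le_sup_left (Ins.pa_mono (subset_insert g A)) E

lemma pa3 (E : α) (A B : Finset (Lp T Λ)) : E ⊔ I.pa A ⊔ I.pa B = E ⊔ I.pa (A ∪ B) := by
  rw [sup_assoc, I.pa_union]

theorem bd_gen (B : c.Bd G I.S Wq e) {m n : Lp T Λ → ℝ} (W : Wg (G.pn s) (G.mdl Y s).b m n)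
    (hG : c.GC G I Y d F R s) (hV : c.VC G I d s) {Mk : Lp T Λ → Prop}
    (f : Finset (Lp T Λ) → Finset (Lp T Λ)) (hf : ∀ B, f B ⊆ B)
    (hM : ∀ k < c.μ, ∀ r ≤ I.S.sep k, ∀ v g, v ∈ g.2 → ¬ c.Lng I.S k r v g → Mk g →
      m g ≤ c.τ k r * (m g + n g))
    (hL : ∀ k < c.μ, ∀ r ≤ I.S.sep k, ∀ y B, I.S.d c.x y + I.S.loc k ≤ I.S.loc c.μ →
      I.S.oct k Z' y ≤ I.S.oct k (I.kz s.Z) y → ∀ v ∈ c.J0 k y, ∀ g ∈ f B, ¬ Hit s.K g →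
        c.Lng I.S k r v g ∨ Mk g) :
    Nu G.ex G.ey (G.pn s) (G.mdl Y s).b m n (fun ω => c.RR I d F R s ω.2.1 ∧
      Wq (I.S.Vis (I.pa (f ω.2.2)) (I.kz s.Z) Z') (I.S.Iso (UU I d s ω.2.1))) ≤
      Zn G.ex G.ey (G.pn s) (G.mdl Y s).b m n * e := by
  refine B _ _ m n _ _ Mk (fun ω => I.S.Vis (I.pa (f ω.2.2)) (I.kz s.Z) Z') ⟨W, fun A g h =>
    h.mono le_rfl (pa_ins _ A g) le_rfl le_rfl Subset.rfl le_rfl,
    fun A g k y h => h.mono (pa_ins _ A g) le_rfl, hG, hM, fun k hk r hr ω y h _ h1 h2 h3 => ?_⟩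
  have al : ∀ g ∈ f ω.2.2, ¬ Hit s.K g := fun g hg => alive (W := yw Y) fun k => h.2.2.2 g (hf _ hg)
    (le_antisymm ((W.hm g).2.trans_eq (by rw [← Bs.u_yw, k])) (W.hm g).1)
  obtain ⟨v, a1, g, a2, a3⟩ := hV k hk ω.1 _ _ y h.1 h.2.1 ((hf _).trans h.2.2.1) al
    ⟨y, mem_singleton_self y, h2.2⟩ h3
  exact ⟨v, a1, g, hf _ a2, a3, hL k hk r hr y _ h1 h2.1 v a1 g a2 (al g a2)⟩

/-- marked up loops. -/
theorem bdK (B : c.Bd G I.S Wq e) (h : Std G y Y (Ld.mk D Y)) (hY : Y < 1) (hs : G.Val s)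
    (hG : ∀ w, G.Val (s.add w) → c.GC G I Y d F R (s.add w))
    (hV : ∀ w, G.Val (s.add w) → c.VC G I d (s.add w)) (h0 : ∀ k r, 0 ≤ c.τ k r)
    (hM : c.Sm I.S D Y) :
    pb (EK G y Y (Ld.mk D Y) s) (fun ω =>
      Cls I.S d (I.pa s.e ⊔ I.pa ω.1 ⊔ I.pa ω.2.1) (I.kz s.Z) c.μ I.S.tm F R ∧
      Wq (I.S.Vis (I.pa ω.2.2) (I.kz s.Z) Z')
        (I.S.Iso (I.S.Jk d (I.pa s.e ⊔ I.pa ω.1 ⊔ I.pa ω.2.1) (I.kz s.Z)))) ≤ e := by
  refine Ld.EG_le (h.pr s) fun w hw => ?_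
  have hw' := hs.add (Bs.gs_supp hw).1
  have hb := mdl_fld (G := G) h.Y0 hY (s.add w)
  have u0 := ub_nn (T := T) fun v => (hb.mem v).1
  have key := bd_gen (Z' := Z') (Mk := fun _ => True) B (m := fun g => Ld.mk D Y g * ub _ g)
    (n := fun g => (1 - Ld.mk D Y g) * ub _ g) ⟨h.ok.pn _, hb, fun g => ⟨mul_nonneg (h.μ g).1 (u0 g),
      mul_le_of_le_one_left (u0 g) (h.μ g).2⟩, fun g => mul_nonneg (sub_nonneg.2 (h.μ g).2) (u0 g)⟩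
    (hG w hw') (hV w hw') id (fun _ => Subset.rfl) (fun k hk r hr v g h1 h2 _ => by
      have := mul_le_mul_of_nonneg_right (div_le_of_le_mul₀ (yw_nn h.Y0 g) (h0 k r)
        (hM k hk r hr v g h1 h2)) (u0 g)
      exact this.trans (le_of_eq (by ring))) fun _ _ _ _ _ _ _ _ _ _ _ _ _ => .inr trivial
  rw [Zn_one, one_mul, Nu, ← J_eq] at key
  simp only [id, ← I.pa_union s.e w]
  exact key

/-- the top colour of the down loops. -/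
theorem bdH (B : c.Bd G I.S Wq e) (h : Std G y' Y μ) (hY : Y < 1) (hs : G.Val s)
    (hW : ∀ g, 0 ≤ W g - yw y' g ∧ W g - yw y' g ≤ yw Y g) (hG : c.GC G I Y d F R s)
    (hV : c.VC G I d s) (h0 : ∀ k r, 0 ≤ c.τ k r) (hM : c.Sm I.S (fun g => W g - yw y' g) Y) :
    pb (EH G W y' Y s) (fun ω =>
      Cls I.S d (I.pa s.e ⊔ I.pa ω.1 ⊔ I.pa ω.2.1) (I.kz s.Z) c.μ I.S.tm F R ∧
      Wq (I.S.Vis (I.pa ω.2.2) (I.kz s.Z) Z')
        (I.S.Iso (I.S.Jk d (I.pa s.e ⊔ I.pa ω.1 ⊔ I.pa ω.2.1) (I.kz s.Z)))) ≤ e := by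
  have hb := mdl_fld (G := G) h.Y0 hY s
  have u0 := ub_nn (T := T) fun v => (hb.mem v).1
  have a0 := Cfg.u_nn (yw_nn (T := T) (Λ := Λ) h.y0) s
  have a1 := Cfg.u_nn (fun g => (hW g).1) s
  have a2 : ∀ g r, 0 ≤ r → W g - yw y' g ≤ r * yw Y g →
      s.u (fun g => W g - yw y' g) g ≤ r * ub (G.mdl Y s).b g := fun g r _ h => by
    rw [← Bs.u_yw, Cfg.u, Cfg.u, off, off]; split_ifs; exacts [by simp, h]
  simp only [pa3]
  refine (EG_two (P := fun S B => c.RR I d F R s S ∧ Wq (I.S.Vis (I.pa B) (I.kz s.Z) Z')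
    (I.S.Iso (UU I d s S))) (ν := Pl.m2 G W y' s) (w0 := fg) (B0 := fun X => fg (Pc.hi X)) (Y := Y)
    (e := e) h.ok hs (fun _ hX => Ld.m2_val hs hX) a1 a0 id ex_two ?_ :)
  refine bd_gen (Mk := fun _ => True) B ⟨h.ok.pn _, hb, fun g => ⟨a1 g, by
      simpa using a2 g 1 zero_le_one (by simpa using (hW g).2)⟩, fun g => add_nonneg (a0 g) (u0 g)⟩
    hG hV id (fun _ => Subset.rfl) (fun k hk r hr v g h1 h2 _ => (a2 g _ (h0 k r)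
      (hM k hk r hr v g h1 h2)).trans (mul_le_mul_of_nonneg_left ?_ (h0 k r)))
    fun _ _ _ _ _ _ _ _ _ _ _ _ _ => .inr trivial
  linarith [a0 g, a1 g]

/-- the down loops that meet `U`. -/
theorem bdU (B : c.Bd G I.S Wq e) (h : Std G y Y μ) (hY : Y < 1) (hy : y ≤ Y) (hs : G.Val s)
    (hG : c.GC G I Y d F R s) (hV : c.VC G I d s) (hU : c.UL I s U Z') :
    pb (EU G y Y U s) (fun ω =>
      Cls I.S d (I.pa s.e ⊔ I.pa ω.1 ⊔ I.pa ω.2.1) (I.kz s.Z) c.μ I.S.tm F R ∧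
      Wq (I.S.Vis (I.pa ω.2.2) (I.kz s.Z) Z')
        (I.S.Iso (I.S.Jk d (I.pa s.e ⊔ I.pa ω.1 ⊔ I.pa ω.2.1) (I.kz s.Z)))) ≤ e := by
  have hb := mdl_fld (G := G) h.Y0 hY s
  have u0 := ub_nn (T := T) fun v => (hb.mem v).1
  have a0 := Cfg.u_nn (yw_nn (T := T) (Λ := Λ) h.y0) s
  simp only [pa3]
  refine (EG_two (P := fun S B => c.RR I d F R s S ∧ Wq (I.S.Vis (I.pa B) (I.kz s.Z) Z')
    (I.S.Iso (UU I d s S))) (ν := G.gs (yw y) s) (w0 := id) (B0 := id) (Y := Y) (e := e) h.ok hs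
    (fun _ hw => hs.add (Bs.gs_supp hw).1) a0 (fun _ => le_rfl) (filter (Hit U)) ex_one ?_ :)
  refine bd_gen (Mk := fun _ => False) B ⟨h.ok.pn _, hb, fun g => ⟨a0 g, ?_⟩,
    fun g => add_nonneg le_rfl (u0 g)⟩ hG hV _ (filter_subset _) (fun _ _ _ _ _ _ _ _ h => h.elim)
    fun k hk r hr z B h1 h2 v h3 g h4 h5 => .inl ?_
  · rw [← Bs.u_yw, Cfg.u, Cfg.u, off, off, yw_eq, yw_eq]
    split_ifs; exacts [le_rfl, pow_le_pow_left₀ h.y0 hy _]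
  · obtain ⟨u, k1, k2⟩ := (mem_filter.1 h4).2
    exact ⟨u, k1, hr.trans_lt (hU k hk z h1 h2 v h3 u k2 fun k => h5 ⟨u, k1, mem_union_left _ k⟩)⟩

variable {vol nc g vj : ℕ → ℕ} {ε : ℕ → ℝ} {t k : ℕ} {E : α} {Z : κ} {S : Sys X α κ}

lemma Nm.rt (N : c.Nm S vol nc g vj ε) (x : X) : (c.rt x).Nm S vol nc g vj ε :=
  ⟨⟨N.ok.K2, N.ok.lo, N.ok.cs, N.ok.sep, N.ok.J0, N.ok.τ0, N.ok.τ1, N.ok.τ2⟩, N.num, N.hj, N.e0,
    N.he⟩

theorem bd_w2 (N : c.Nm S vol nc g vj ε) (hd : S.k0 + S.oc + d ≤ S.tm) (h : S.Good d E Z c.μ t c.x)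
    (ht : t ≤ S.tm) : c.Bd G S (fun V Q => S.W2 d E Z V Q c.μ c.x) (ε c.μ) :=
  fun _ _ _ _ _ _ _ _ H => H.w2 N hd h ht

theorem bd_wn (N : c.Nm S vol nc g vj ε) (hd : S.k0 + S.oc + d ≤ S.tm) (hk : c.μ = k + 1)
    (h : S.Good d E Z (k + 1) t c.x) (ht : t ≤ S.tm) :
    c.Bd G S (fun V Q => S.Wn d E Z V Q 0 k c.x) (ε (k + 1) + vol k * ε k) :=
  fun _ _ _ _ _ _ _ _ H => H.wn N hd hk h ht

/-- **the inputs of `F3`**: numerics, Green bound off the balls `(F, R3)`, visits. -/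
structure In3 (c : Cx T Λ X) (I : Ins T Λ X α κ) (G : Bs T Λ) (Sd : Finset (Fin T × Λ) → Prop)
    (Y : ℝ) (d n R2 R3 : ℕ) (vol nc g vj : ℕ → ℕ) (ε : ℕ → ℝ) : Prop where
  Y1 : Y < 1
  hd : I.S.k0 + I.S.oc + d ≤ I.S.tm
  N : c.Nm I.S vol nc g vj ε
  hG : ∀ s F x, G.Val s → Sd s.Z → F.card ≤ n → I.S.Off F R3 x →
    (c.rt x).GC G I Y (d + 1 + 1) F R2 s
  hV : ∀ s, G.Val s → c.VC G I (d + 1 + 1) s

variable {Sd : Finset (Fin T × Λ) → Prop} {n R0 R2 R3 : ℕ} {Us U' : Cfg T Λ → Finset (Fin T × Λ)}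

lemma In3.τ0 (H : c.In3 I G Sd Y d n R2 R3 vol nc g vj ε) (k r : ℕ) : 0 ≤ c.τ k r :=
  (H.N.ok.τ0 k r).1.le

lemma In3.w2 (H : c.In3 I G Sd Y d n R2 R3 vol nc g vj ε) (hR : R0 ≤ R3) {x : X}
    (a : Ad I G Sd d c.μ n R0 s F) (hx : I.S.Off F R3 x) :
    (c.rt x).Bd G I.S (fun V Q => I.S.W2 d (I.pa s.e) (I.kz s.Z) V Q c.μ x) (ε c.μ) :=
  bd_w2 (H.N.rt x) H.hd (a.cl x (hx.mono Subset.rfl hR)) le_rfl

lemma In3.wn (H : c.In3 I G Sd Y d 0 0 0 vol nc g vj ε) (hk : c.μ = k + 1) (x : X)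
    (a : Ad I G Sd d (k + 1) 0 0 s ∅) : (c.rt x).Bd G I.S
      (fun V Q => I.S.Wn d (I.pa s.e) (I.kz s.Z) V Q 0 k x) (ε (k + 1) + vol k * ε k) :=
  bd_wn (H.N.rt x) H.hd hk (Cls.all a.cl x) le_rfl

/-- **F3**, marked up loops. -/
theorem f3K (H : c.In3 I G Sd Y d n R2 R3 vol nc g vj ε) (hR : R0 ≤ R3)
    (h : Std G y Y (Ld.mk D Y)) (hM : c.Sm I.S D Y) :
    Ld.F3 I G Sd (EK G y Y (Ld.mk D Y)) U' d c.μ n R0 R2 R3 (ε c.μ) := fun s F x a hx =>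
  (bdK (Z' := I.kz (s.Z ∪ U' s)) (H.w2 hR a hx) h H.Y1 a.val (fun w hw => H.hG (s.add w) F x hw a.sd
    a.card hx) (fun w hw => H.hV (s.add w) hw) H.τ0 hM :)

/-- **F3**, top colour. -/
theorem f3H (H : c.In3 I G Sd Y d n R2 R3 vol nc g vj ε) (hR : R0 ≤ R3) (h : Std G y' Y μ)
    (hW : ∀ g, 0 ≤ W g - yw y' g ∧ W g - yw y' g ≤ yw Y g)
    (hM : c.Sm I.S (fun g => W g - yw y' g) Y) :
    Ld.F3 I G Sd (EH G W y' Y) U' d c.μ n R0 R2 R3 (ε c.μ) := fun s F x a hx =>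
  (bdH (Z' := I.kz (s.Z ∪ U' s)) (H.w2 hR a hx) h H.Y1 a.val hW (H.hG s F x a.val a.sd a.card hx)
    (H.hV s a.val) H.τ0 hM :)

/-- **F3**, loops that meet `U`, in one configuration (`Z'` = the new killed set). -/
theorem f3U' (H : c.In3 I G Sd Y d n R2 R3 vol nc g vj ε) (hR : R0 ≤ R3) (h : Std G y Y μ)
    (hy : y ≤ Y) {x : X} (a : Ad I G Sd d c.μ n R0 s F) (hx : I.S.Off F R3 x)
    (hU : (c.rt x).UL I s U Z') : pb (EU G y Y U s) (fun ω =>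
      Cls I.S (d + 1 + 1) (I.pa s.e ⊔ I.pa ω.1 ⊔ I.pa ω.2.1) (I.kz s.Z) c.μ I.S.tm F R2 ∧
      Ld.W2 I.S d (I.pa s.e) (I.pa s.e ⊔ I.pa ω.1 ⊔ I.pa ω.2.1) (I.pa ω.2.2) (I.kz s.Z) Z' c.μ x) ≤
      ε c.μ :=
  (bdU (H.w2 hR a hx) h H.Y1 hy a.val (H.hG s F x a.val a.sd a.card hx) (H.hV s a.val) hU :)

theorem f3U (H : c.In3 I G Sd Y d n R2 R3 vol nc g vj ε) (hR : R0 ≤ R3) (h : Std G y Y μ)
    (hy : y ≤ Y) (hU : ∀ s x, (c.rt x).UL I s (Us s) (I.kz (s.Z ∪ U' s))) :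
    Ld.F3 I G Sd (fun s => EU G y Y (Us s) s) U' d c.μ n R0 R2 R3 (ε c.μ) := fun s _ x a hx =>
  f3U' H hR h hy a hx (hU s x)

/-- **N3**, marked up loops. -/
theorem n3K (H : c.In3 I G Sd Y d 0 0 0 vol nc g vj ε) (hk : c.μ = k + 1)
    (h : Std G y Y (Ld.mk D Y)) (hM : c.Sm I.S D Y) :
    Ld.N3 I G Sd (EK G y Y (Ld.mk D Y)) d k (ε (k + 1) + vol k * ε k) := fun s x a => by
  have := bdK (Z' := I.kz s.Z) (H.wn hk x a) h H.Y1 a.val (fun w hw => H.hG (s.add w) ∅ x hw a.sd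
    le_rfl fun _ h => absurd h (notMem_empty _)) (fun w hw => H.hV (s.add w) hw) H.τ0 hM
  rwa [show (c.rt x).μ = k + 1 from hk] at this

/-- **N3**, top colour. -/
theorem n3H (H : c.In3 I G Sd Y d 0 0 0 vol nc g vj ε) (hk : c.μ = k + 1) (h : Std G y' Y μ)
    (hW : ∀ g, 0 ≤ W g - yw y' g ∧ W g - yw y' g ≤ yw Y g)
    (hM : c.Sm I.S (fun g => W g - yw y' g) Y) :
    Ld.N3 I G Sd (EH G W y' Y) d k (ε (k + 1) + vol k * ε k) := fun s x a => by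
  have := bdH (Z' := I.kz s.Z) (H.wn hk x a) h H.Y1 a.val hW (H.hG s ∅ x a.val a.sd le_rfl
    fun _ h => absurd h (notMem_empty _)) (H.hV s a.val) H.τ0 hM
  rwa [show (c.rt x).μ = k + 1 from hk] at this

end Cx

end Crest.Agent.N337.Rg
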