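import Crest.Agent.N337.Rg.F3
import Crest.Agent.N337.C9.Ins
import Crest.Agent.N337.Ld.Grd

/-!
# Row 337 (helper75): visits of good cells are seen on the first slice of the window (`VC`, `Anc`)
-/

set_option autoImplicit false
set_option linter.unusedSectionVars false

namespace Crest.Agent.N337.Rg

open Finset Crest.Agent.N337.Free Crest.Agent.N337.KV Crest.Agent.N337.Rep Crest.Agent.N337.M
  Crest.Agent.N337.I Crest.Agent.N337.Gas
open Crest.Agent.N337.A (Path Slow Met)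
open Crest.Agent.N337.Ld (locN)

/-- a slow invariant set is followed back in time. -/
theorem back_slow {Λ : Type} [Fintype Λ] [DecidableEq Λ] {T : ℕ} [NeZero T] {ex ey : Fin T → Λ}
    {d : Λ → Λ → ℕ} (hd : Met ex ey d) {ξ : Fin T → Bool} {O : Finset (Fin T × Λ)}
    (hO : ∀ v, Sg ex ey ξ v ∈ O → v ∈ O) {a b v r : ℕ} {c : Λ → ℕ}
    (hc : ∀ y y', c y ≤ c y' + d y y')
    (hS : Slow ex ey d (fun s => ξ s = true ∧ s.val ∈ Ico a b) (fun u => u ∈ O ∧ c u.2 ≤ r + v + 1) v)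
    {k : Fin T} {y : Λ} (h1 : a ≤ k) (h2 : k.val ≤ b) (hy : (k, y) ∈ O) (h3 : c y ≤ r) :
    ∃ y', (tm T a, y') ∈ O ∧ c y' ≤ r + v := by
  have key : ∀ j, a + j ≤ k → ∃ γ : ℕ → Λ, γ k = y ∧ Path ex ey
      (fun s => ξ s = true ∧ s.val ∈ Ico a b) (fun u => u ∈ O ∧ c u.2 ≤ r + v + 1) (k - j) k γ ∧
      (tm T (k - j), γ (k - j)) ∈ O ∧ c (γ (k - j)) ≤ r + v := by
    intro j
    induction j with
    | zero => exact fun _ => ⟨fun _ => y, rfl, fun r a b => by omega, by rwa [Nat.sub_zero, tm_fin],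
        h3.trans (Nat.le_add_right _ _)⟩
    | succ j ih =>
      intro hj
      obtain ⟨γ, a1, a2, a3, a4⟩ := ih (by omega)
      obtain ⟨u, hu⟩ : ∃ u, k - j = u + 1 := ⟨k - (j + 1), by omega⟩
      rw [show k - (j + 1) = u by omega]
      rw [hu] at a2 a3 a4
      set z := sg (ex (tm T u)) (ey (tm T u)) (ξ (tm T u)) (γ (u + 1)) with hz
      have b1 : (tm T u, z) ∈ O := hO _ (by rwa [Sg_apply, hz, sg_sg, ← tm_succ])
      have b2 : γ (u + 1) = z ∨ ξ (tm T u) = true ∧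
          γ (u + 1) = Equiv.swap (ex (tm T u)) (ey (tm T u)) z := by
        rw [hz, sg]; split_ifs with h
        exacts [.inr ⟨h, (Equiv.swap_apply_self _ _ _).symm⟩, .inl rfl]
      have b3 : d z (γ (u + 1)) ≤ 1 := by
        rcases b2 with e | ⟨-, e⟩ <;> rw [e]
        · rw [hd.1]; omega
        · rw [Equiv.swap_apply_def]
          split_ifs with h3 h4
          · rw [h3]; exact hd.2.2.2 _
          · rw [h4, hd.2.1]; exact hd.2.2.2 _
          · rw [hd.1]; omega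
      have b4 : Path ex ey (fun s => ξ s = true ∧ s.val ∈ Ico a b)
          (fun u => u ∈ O ∧ c u.2 ≤ r + v + 1) u k (Function.update γ u z) := fun s c1 c2 => by
        rw [Function.update_of_ne (by omega : s.val + 1 ≠ u)]
        by_cases e : s.val = u
        · obtain rfl : s = tm T u := by rw [← e, tm_fin]
          rw [e, Function.update_self]
          exact ⟨⟨b1, by have := hc z (γ (u + 1)); show c z ≤ _; omega⟩, b2.imp_right fun h =>
            ⟨⟨h.1, mem_Ico.2 ⟨by omega, by omega⟩⟩, h.2⟩⟩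
        · rw [Function.update_of_ne e]; exact a2 s (by omega) c2
      have b5 := hS u k _ (by omega) k.2.le b4
      rw [Function.update_self, Function.update_of_ne (by omega), a1] at b5
      exact ⟨_, (Function.update_of_ne (by omega) _ _).trans a1, b4, by
        rwa [Function.update_self], by rw [Function.update_self]; have := hc z y; omega⟩
  obtain ⟨γ, -, -, a1, a2⟩ := key (k - a) (by omega)
  rw [show k - (k - a) = a by omega] at a1 a2
  exact ⟨_, a1, a2⟩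

variable {L n T : ℕ} [NeZero L] [NeZero T] {B : ℕ}

/-- the first slices of the windows over a ball. -/
noncomputable def gsl (n T : ℕ) [NeZero T] (B D : ℕ) (y : Tor 3 L) (r : ℕ) : Finset (V L n T) :=
  ((range B).image fun i => tm T (i * D)) ×ˢ ((univ.filter fun z => tdist y z ≤ r) ×ˢ univ)

lemma card_gsl (B D : ℕ) (y : Tor 3 L) (r : ℕ) : (gsl n T B D y r).card ≤ B * C9.Vn n r := by
  rw [gsl, card_product, card_product, card_univ, Fintype.card_fin, C9.Vn, mul_comm n]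
  exact Nat.mul_le_mul (card_image_le.trans (card_range B).le)
    (Nat.mul_le_mul_right _ (card_ball_le _ _))

lemma gsl_d {D r : ℕ} {y : Tor 3 L} {v : V L n T} (h : v ∈ gsl n T B D y r) : tdist y v.2.1 ≤ r :=
  (mem_filter.1 (mem_product.1 (mem_product.1 h).2).1).2

/-- speed per window in good cells of scale `k`. -/
def vv (P : I.Num) (τ k : ℕ) : ℕ := 2 * τ * P.j1 + P.lw τ k

variable {ex ey : Fin T → Tor 3 L × Fin n} {P : I.Num} {z0 : Tor 3 L} {d t τ k r m : ℕ}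

/-- **anchors.** -/
theorem anch (hnn : ∀ s, tdist (ex s).1 (ey s).1 ≤ 1) (hT : T = B * P.D) (c : C9.SlN P d t τ)
    {ξ : Fin T → Bool} {A A' : Finset (Lp T (Tor 3 L × Fin n))} (hA : A ⊆ Gas.L ex ey ξ)
    {E : Ev L n T} (hE : I.ev ex ey A ≤ E) (hB : A' ⊆ A) {Z : Finset (V L n T)}
    (al : ∀ g ∈ A', ¬ Hit Z g) {y z : Tor 3 L}
    (hG : ∀ u, tdist y u ≤ r + 1 + vv P τ k + 1 → (sys n T P z0).Good d E (kil Z) k τ u)
    (h1 : hit (I.ev ex ey A') z) (h2 : tdist y z ≤ r) :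
    ∃ v ∈ gsl n T B P.D y (r + 1 + vv P τ k), ∃ g ∈ A', v ∈ g.2 := by
  rw [I.ev_eq (hB.trans hA)] at h1
  obtain ⟨⟨s, w⟩, h3, h4⟩ := hit_evp hnn h1
  obtain ⟨g, h5, h6⟩ := mem_pts.1 h3
  have h7 : tdist y w.1 ≤ r + 1 := by
    have := tdist_triangle y z w.1
    rcases h4 with e | e
    · rw [← show w.1 = z from e] at h2; omega
    · rw [tdist_comm] at e; change tdist z w.1 ≤ 1 at e; omega
  have hg := hA (hB h5)
  have hD := D_pos hT
  obtain ⟨y', a1, a2⟩ := back_slow (d := fun x y => tdist x.1 y.1) (ξ := ξ) (O := g.2)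
    ⟨fun _ => tdist_self _, fun _ _ => tdist_comm _ _, fun _ _ _ => tdist_triangle _ _ _, hnn⟩
    (fun v hv => by simpa [pts] using (pts_inv (singleton_subset_iff.2 hg) v).1 (by simpa [pts]))
    (c := fun w => tdist y w.1) (fun a b => tdist_comm a.1 b.1 ▸ tdist_triangle y b.1 a.1)
    (slow_win' (z0 := z0) (E := E) (Z := kil Z) hnn c.hl c.hτ c.hρ c.hJ (fun r x k1 k2 k3 k4 =>
      hE.2 (mem_act.2 ⟨⟨g, hB h5, by
        rw [L_fst hg, if_pos (show tch ex ey g.2 r from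
          k3.elim (fun e => .inl (e ▸ k4.1)) fun e => .inr (e ▸ k4.1)), k1]⟩,
        fun e => k2 (by rw [e, tdist_self]), k3⟩))
      (fun u hu => ⟨not_dead fun k => al g h5 ⟨u, hu.1, k⟩, hG _ hu.2⟩) (s.val / P.D))
    (Nat.div_mul_le_self _ _) (by rw [add_mul, one_mul]; exact (Nat.lt_div_mul_add hD).le) h6 h7
  refine ⟨_, mem_product.2 ⟨mem_image.2 ⟨_, mem_range.2 ?_, rfl⟩, mem_product.2
    ⟨mem_filter.2 ⟨mem_univ _, a2⟩, mem_univ _⟩⟩, g, h5, a1⟩
  exact Nat.div_lt_of_lt_mul (by rw [mul_comm, ← hT]; exact s.2)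

lemma gsl_mono {D r r' : ℕ} {y : Tor 3 L} (h : r ≤ r') : gsl n T B D y r ⊆ gsl n T B D y r' :=
  product_subset_product_right (product_subset_product_left
    (monotone_filter_right _ fun _ _ k => k.trans h))

variable {G : Bs T (Tor 3 L × Fin n)} {Sd : Finset (V L n T) → Prop}

/-- **Anc.** -/
theorem anc (hnn : ∀ s, tdist (G.ex s).1 (G.ey s).1 ≤ 1) (hT : T = B * P.D)
    (c : C9.SlN P d P.tm τ) (m r : ℕ) :
    Ld.Anc (ins G.ex G.ey P z0) G Sd d m r (B * C9.Vn n (r + 1 + vv P τ m)) := fun x =>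
  ⟨_, card_gsl B P.D x _, fun s A a h1 h2 ⟨f, h3, z, h4, h5⟩ => by
    obtain ⟨ξ, -, hξ⟩ := qq_supp a.val
    rw [mem_singleton.1 h3] at h5
    obtain ⟨v, b1, g, b2, b3⟩ :=
      anch hnn hT c hξ le_rfl h1 h2 (fun u _ => (Ld.Cls.all a.cl u).up c.ht) h4 h5
    exact ⟨g, b2, v, b1, b3⟩⟩

/-- an isolated cell sees no junk nearby. -/
lemma Sys.Iso.clean {X α κ : Type} [Fintype X] [SemilatticeSup α] [Preorder κ] {S : Sys X α κ}
    {U : ℕ → X → Prop} {y u : X} (h : S.Iso U k y) (hL : 2 ≤ S.Lam) (h1 : S.d y u ≤ S.sep k)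
    (h2 : S.d y u ≤ S.H k) : ¬ U k u := fun hu => by
  obtain ⟨s, F, a1, -, -, a2, a3⟩ := h
  obtain ⟨f, b1, b2⟩ := a2 u hu h2
  have := a3 f b1
  have := S.d_tri f u y
  have := S.d_comm u y
  have := Nat.mul_le_mul_right s hL
  omega

/-- the data of the covering bound on the torus. -/
noncomputable def cxI (L n T : ℕ) [NeZero L] [NeZero T] (B D K μ : ℕ) (lo cs : ℕ → ℕ)
    (τ : ℕ → ℕ → ℝ) : Cx T (Tor 3 L × Fin n) (Tor 3 L) :=
  ⟨Prod.fst, K, μ, 0, lo, cs, τ, fun k y => gsl n T B D y (lo k)⟩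

/-- numbers: visits. -/
structure VN (P : I.Num) (d τ μ : ℕ) (lo : ℕ → ℕ) : Prop where
  sl : C9.SlN P d P.tm τ
  lam : 2 ≤ P.Lam
  lo : ∀ k < μ, locN P k + 1 + vv P τ k ≤ lo k ∧ lo k < P.sep k ∧ lo k < P.H k

/-- **VC.** -/
theorem vc (hnn : ∀ s, tdist (G.ex s).1 (G.ey s).1 ≤ 1) (hT : T = B * P.D) {K μ : ℕ}
    {lo cs : ℕ → ℕ} {θ : ℕ → ℕ → ℝ} (c : VN P d τ μ lo) (s : Cfg T (Tor 3 L × Fin n)) :
    (cxI L n T B P.D K μ lo cs θ).VC G (ins G.ex G.ey P z0) d s := by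
  rintro k hk ξ A A' y - h1 h2 h3 ⟨f, h4, z, h5, h6⟩ h7
  rw [mem_singleton.1 h4, Ld.loc_ins] at h6
  obtain ⟨a1, a2, a3⟩ := c.lo k hk
  obtain ⟨v, b1, b2⟩ := anch (z0 := z0) (k := k) (Z := s.Z) hnn hT c.sl h1
    (E := I.ev G.ex G.ey s.e ⊔ I.ev G.ex G.ey A) le_sup_right h2
    (fun g hg ⟨u, k1, k2⟩ => h3 g hg ⟨u, k1, mem_union_left _ k2⟩)
    (fun u hu => Sys.Good.up (of_not_not (h7.clean c.lam (show tdist y u ≤ P.sep k by omega)
      (show tdist y u ≤ P.H k by omega))) c.sl.hτ) h5 h6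
  exact ⟨v, gsl_mono a1 b1, b2⟩

end Crest.Agent.N337.Rg
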