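import Crest.Agent.N337.Rg.Vis
import Crest.Agent.N337.Ld.Us
import Crest.Agent.N337.M.Cel
import Crest.Agent.N337.M.Wd

/-!
# Row 337 (helper75): the fields `fK`, `fH`, `fU`, `n3` of `Cel`, `Cen` on the torus
-/

set_option autoImplicit false
set_option linter.unusedSectionVars false

namespace Crest.Agent.N337.Rg

open Finset Crest.Agent.N337.Free Crest.Agent.N337.I Crest.Agent.N337.M Crest.Agent.N337.Gas
  Crest.Agent.N337.Ld Crest.Agent.N337.A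

section defs
variable {Λ : Type} [Fintype Λ] [DecidableEq Λ] {T : ℕ} [NeZero T] {X α κ : Type} [Fintype X]
  [DecidableEq X] [SemilatticeSup α] [Preorder κ]

/-- the fields of `Cel` that come from the covisit trees. -/
structure Tp3 (I : Ins T Λ X α κ) (G : Bs T Λ) (Sd : Finset (Fin T × Λ) → Prop)
    (Gr : Finset Λ → Prop) (m : ℕ) (Y δ ε : ℝ) (nc cap : ℕ) (nx : ℕ → ℕ) : Prop where
  fK : ∀ y D R0 R, 0 ≤ y → y ≤ Y → (∀ g, 0 ≤ D g ∧ D g ≤ yw Y g) → (m ≠ 0 → Thin Y δ D) → R0 ≤ R →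
    R ≤ cap → F3 I G Sd (EK G y Y (Ld.mk D Y)) (fun _ => ∅) 0 m nc R0 R (nx R) ε
  fH : ∀ y y' R0 R, 0 ≤ y' → y' ≤ y → y ≤ Y →
    (m ≠ 0 → Thin Y δ fun g : Lp T Λ => yw y g - yw y' g) → R0 ≤ R → R ≤ cap →
    F3 I G Sd (EH G (yw y) y' Y) (fun _ => ∅) 0 m nc R0 R (nx R) ε
  fU : ∀ y (C : Cfg T Λ → Finset Λ) R0 R, 0 ≤ y → y ≤ Y → (∀ s, Gr (C s)) → R0 ≤ R → R ≤ cap →
    F3 I G Sd (fun s => EU G y Y (cyl (C s)) s) (fun s => cyl (C s)) 0 m nc R0 R (nx R) ε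

end defs

variable {L n T : ℕ} [NeZero L] [NeZero T]

/-- numbers of the covisit trees (no word). -/
structure N3n (c : Cx T (Tor 3 L × Fin n) (Tor 3 L)) (P : I.Num) (z0 : Tor 3 L) (S : G1.Scales)
    (Ge : Tr.Eg) (k k' th : ℕ → ℕ) (κ e Y δ : ℝ) (nc cap : ℕ) (nx vol : ℕ → ℕ) (ε : ℕ → ℝ) :
    Prop where
  gc : ∀ R ≤ cap, R ≤ nx R ∧ GcN c P z0 S Ge k k' th κ 0 e 2 nc R (nx R)
  nm : ∃ nc' g vj, c.Nm (sys n T P z0) vol nc' g vj ε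
  vn : ∃ τ, VN P 2 τ c.μ c.lo
  sm : ∀ l < c.μ, 1 / 2 ≤ Y ^ C9.Vn n (P.sep l) ∧
    ∀ r ≤ P.sep l, 2 * δ * C9.Vn n (P.sep l) ≤ c.τ l r
  σ : ∀ l < c.μ, 2 * P.sep l ≤ P.σ l

/-- the word. -/
structure W3 (W : Gl.Wd T) (G : Bs T (Tor 3 L × Fin n)) (P : I.Num) (S : G1.Scales)
    (Sd : Finset (V L n T) → Prop) (B vol : ℕ) (e Y : ℝ) : Prop where
  w : C9.Wr W G P.toLf Y
  hT : T = B * P.D
  nu : ∃ t x0 j, P.tm ≤ t ∧ 2 ≤ x0 ∧ Gl.Nu W L P.toLf S t x0 j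
  er : W.er L n ≤ e
  tp : ∀ Z, Sd Z → Gl.Tp W (kil Z) vol 0

variable {W : Gl.Wd T} {G : Bs T (Tor 3 L × Fin n)} {P : I.Num} {z0 : Tor 3 L} {S : G1.Scales}
  {Sd : Finset (V L n T) → Prop} {Ge : Tr.Eg} {k k' th lo cs nx vol : ℕ → ℕ} {e Y δ : ℝ}
  {B K m nc cap R : ℕ} {θ : ℕ → ℕ → ℝ} {ε : ℕ → ℝ}

section
variable (w : W3 W G P S Sd B (Gl.vT Ge k) e Y)
  (N : N3n (cxI L n T B P.D K m lo cs θ) P z0 S Ge k k' th W.κ e Y δ nc cap nx vol ε)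
include w N

theorem in3 (hR : R ≤ cap) : ∃ nc' g vj, (cxI L n T B P.D K m lo cs θ).In3 (ins G.ex G.ey P z0) G Sd
    Y 0 nc R (nx R) vol nc' g vj ε := by
  obtain ⟨nc', g, vj, h⟩ := N.nm
  obtain ⟨τ, h1⟩ := N.vn
  obtain ⟨t, x0, j, h2, h3, h4⟩ := w.nu
  have h5 := (N.gc R hR).2
  exact ⟨nc', g, vj, w.w.Y1, (Nat.add_le_add_left (Nat.zero_le 2) _).trans h5.uc.hd, h, fun s F x a b c d =>
    gc_ins w.w h4 h2 h3 w.er h5 a (w.tp _ b) c d, fun s _ => vc w.w.wd.nn w.hT h1 s⟩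

theorem sm3 {D : Lp T (Tor 3 L × Fin n) → ℝ} (h : m ≠ 0 → Thin Y δ D) :
    (cxI L n T B P.D K m lo cs θ).Sm (sys n T P z0) D Y := by
  intro l hl r hr v g _ hg
  obtain ⟨a1, a2⟩ := N.sm l hl
  obtain ⟨a3, -, a4⟩ := h (by change l < m at hl; omega) g
  obtain ⟨_, _, _, h⟩ := N.nm
  have b1 : wd g ≤ C9.Vn n (P.sep l) := (wd_short rfl hg).trans (by
    have : r ≤ P.sep l := hr
    unfold C9.Vn; gcongr)
  have b2 : 1 / 2 ≤ yw Y g := by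
    rw [yw_eq]; exact a1.trans (pow_le_pow_of_le_one w.w.Y0 w.w.Y1.le b1)
  have b3 : (wd g : ℝ) ≤ C9.Vn n (P.sep l) := by exact_mod_cast b1
  have b4 := mul_le_mul_of_nonneg_left b2 (h.ok.τ0 l r).1.le
  have b5 := a2 r hr
  rcases le_total 0 δ with c | c
  · nlinarith
  · nlinarith [(h.ok.τ0 l r).1, Nat.cast_nonneg (α := ℝ) (wd g)]

/-- **`fK`, `fH`, `fU`.** -/
theorem tp3 : Tp3 (ins G.ex G.ey P z0) G Sd (fun C => ∀ l < m, Grd z0 (P.σ l) C) m Y δ (ε m) nc cap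
    nx := by
  have y0 := w.w.Y0
  have y1 := w.w.Y1.le
  refine ⟨fun y D R0 R a _ b c d f => ?_, fun y y' R0 R a b c d f g => ?_,
    fun y C R0 R a b c d f => ?_⟩
  · obtain ⟨_, _, _, H⟩ := in3 w N f
    exact Cx.f3K H (d.trans (N.gc R f).1) ⟨w.w.ok, a, y0, y1, mk_mem b⟩ (sm3 w N c)
  · obtain ⟨_, _, _, H⟩ := in3 w N g
    refine Cx.f3H (μ := fun _ => 0) H (f.trans (N.gc R g).1) ⟨w.w.ok, a, y0, y1, by simp⟩
      (fun g => ?_) (sm3 w N d)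
    simp only [yw_eq]
    constructor <;> linarith [pow_le_pow_left₀ a b (wd g), pow_le_pow_left₀ (a.trans b) c (wd g),
      pow_nonneg a (wd g)]
  · obtain ⟨_, _, _, H⟩ := in3 w N f
    exact Cx.f3U (μ := fun _ => 0) H (d.trans (N.gc R f).1) ⟨w.w.ok, a, y0, y1, by simp⟩ b
      fun s x => ul_grd rfl H.N.ok.J0 N.σ (c s) s x

end

/-- **`n3`.** -/
theorem n3 (w : W3 W G P S Sd B (Gl.vT Ge k) e Y)
    (N : N3n (cxI L n T B P.D K (m + 1) lo cs θ) P z0 S Ge k k' th W.κ e Y δ nc cap nx vol ε)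
    (y : ℝ) (D : Lp T (Tor 3 L × Fin n) → ℝ) (h0 : 0 ≤ y) (hD : Thin Y δ D) :
    N3 (ins G.ex G.ey P z0) G Sd (EK G y Y (Ld.mk D Y)) 0 m (ε (m + 1) + vol m * ε m) := by
  obtain ⟨_, _, _, H⟩ := in3 w N (Nat.zero_le _)
  refine Cx.n3K ⟨H.Y1, H.hd, H.N, fun s F x a b c _ => H.hG s F x a b (c.trans (Nat.zero_le _)) ?_,
    H.hV⟩ rfl ⟨w.w.ok, h0, w.w.Y0, w.w.Y1.le, mk_mem fun g => ⟨(hD g).1, (hD g).2.1⟩⟩
    (sm3 w N fun _ => hD)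
  rw [card_eq_zero.1 (Nat.le_zero.1 c)]
  exact off_empty _ _ _

section word
variable [NeZero n] {β : ℝ} {w : ℕ} {sy : List (Top.Sl L n × Top.Sl L n × ℝ)}

/-- the word record of the torus word. -/
theorem wr_word (h : Wd β w sy) {F : I.Lf} (hD : F.D = Dw w sy) (h0 : 0 ≤ Y) (h1 : Y < 1) :
    C9.Wr (wdT β w sy (max Y (1 / 2))) (GT β w sy) F Y :=
  ⟨h.ok, rfl, h.gl hD (le_max_right _ _) (max_lt h1 (by norm_num)), rfl,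
    fun v => bt_le (le_max_left _ _) v, h0, h1⟩

theorem er_word (h : Wd β w sy) (h1 : Y < 1) (h2 : 1 / (1 - Y) ≤ L) (he : 1 / L ≤ e) :
    (wdT β w sy (max Y (1 / 2))).er L n ≤ e := by
  refine h.er_le (max_lt h1 (by norm_num)) ?_ he
  rcases le_total Y (1 / 2) with a | a
  · rw [max_eq_right a]
    have : (3 : ℝ) ≤ L := by exact_mod_cast h.hL
    linarith
  · rwa [max_eq_left a]

theorem w3_word (h : Wd β w sy) (hD : P.D = Dw w sy) (h0 : 0 ≤ Y) (h1 : Y < 1)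
    (h2 : 1 / (1 - Y) ≤ L) (he : 1 / L ≤ e) {L0 t x0 j l v : ℕ} (ht : P.tm ≤ t) (hx : 2 ≤ x0)
    (nu : Nu0 L0 P.toLf S t x0 j) (hL : L0 ≤ L) (hv : 4 * (2 * l + 1) ^ 3 ≤ v) (z : Tor 3 L) :
    W3 (wdT β w sy (max Y (1 / 2))) (GT β w sy) P S (fun Z => ∀ v, v ∉ Z → v.2 ∈ cubeS n z l)
      (Bw β) v e Y :=
  ⟨wr_word h hD h0 h1, hD ▸ T_eq β w sy, ⟨t, x0, j, ht, hx, h.nu nu hL _⟩, er_word h h1 h2 he,
    fun _ hZ => tp_cube _ hZ hv Subset.rfl⟩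

end word

end Crest.Agent.N337.Rg
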