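import Crest.Agent.N337.Rg.Ult
import Crest.Agent.N337.G4.Mecke

/-!
# Row 337 (helper75): covisit trees are rare (F3)

`Nu p b m n` = mass of (coins, family `C`, marked part `B`) with weights `m` (marked), `n`
(unmarked), `1 - ub b` (absent).  A target is covered by a long loop (static Mecke bound) or by a
small marked loop (thinning).
-/

set_option autoImplicit false
set_option linter.unusedSectionVars false

namespace Crest.Agent.N337.Rg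

open Finset Crest.Agent.N337.Rep Crest.Agent.N337.Gas Crest.Agent.N337.G4
open Crest.Agent.N337.WN (Gc Exit exA)

section mk
variable {Γ : Type} [Fintype Γ] [DecidableEq Γ] {a c : Γ → ℝ} {X : Finset Γ} {F G : Finset Γ → ℝ}

lemma mk_mono (ha : ∀ g, 0 ≤ a g) (hc : ∀ g, 0 ≤ c g)
    (h : ∀ B ⊆ X, (∀ g ∈ B, a g ≠ 0) → F B ≤ G B) : mk a c X F ≤ mk a c X G :=
  sum_le_sum fun B hB => by
    by_cases h0 : ∏ g ∈ B, a g = 0
    · simp [h0]
    · exact mul_le_mul_of_nonneg_left (h B (mem_powerset.1 hB) (prod_ne_zero_iff.1 h0))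
        (mul_nonneg (prod_nonneg fun g _ => ha g) (prod_nonneg fun g _ => hc g))

lemma mk_zero : mk a c X (fun _ => 0) = 0 := by simp [G4.mk]

open Classical in
/-- thinning: all loops `f i`, `i ∈ Y`, are marked. -/
lemma mk_thin {ι : Type} (ha : ∀ g, 0 ≤ a g) (hc : ∀ g, 0 ≤ c g) (hF : ∀ B, 0 ≤ F B) {e : ι → ℝ}
    {f : ι → Γ} (e0 : ∀ i, 0 ≤ e i) (Y : Finset ι) (hf : Set.InjOn f Y) (hY : ∀ i ∈ Y, f i ∈ X)
    (he : ∀ i ∈ Y, a (f i) ≤ e i * (a (f i) + c (f i)))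
    (hI : ∀ i ∈ Y, ∀ B, F (insert (f i) B) = F B) :
    mk a c X (fun B => if ∀ i ∈ Y, f i ∈ B then F B else 0) ≤ (∏ i ∈ Y, e i) * mk a c X F := by
  induction Y using Finset.induction_on generalizing X with
  | empty => simp
  | insert i Y hi ih =>
    have h0 := mem_insert_self i Y
    obtain ⟨X, hX, rfl⟩ : ∃ X', f i ∉ X' ∧ X = insert (f i) X' :=
      ⟨X.erase (f i), notMem_erase _ _, (insert_erase (hY i h0)).symm⟩
    have ne : ∀ y ∈ Y, f y ≠ f i := fun y hy k =>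
      ne_of_mem_of_not_mem hy hi (hf (mem_insert_of_mem hy) h0 k)
    have h1 := ih (hf.mono (coe_subset.2 (subset_insert _ _))) (fun y hy => (mem_insert.1 (hY y
      (mem_insert_of_mem hy))).resolve_left (ne y hy)) (fun y hy => he y (mem_insert_of_mem hy))
      fun y hy => hI y (mem_insert_of_mem hy)
    have h3 : 0 ≤ (∏ g ∈ Y, e g) * mk a c X F := mul_nonneg (prod_nonneg fun y _ => e0 y)
      (mk_zero.ge.trans (mk_mono ha hc fun B _ _ => hF B))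
    have e1 : ∀ B, (∀ y ∈ insert i Y, f y ∈ insert (f i) B) ↔ ∀ y ∈ Y, f y ∈ B := fun B =>
      ⟨fun h y hy => (mem_insert.1 (h y (mem_insert_of_mem hy))).resolve_left (ne y hy),
        fun h y hy => (mem_insert.1 hy).elim (fun k => k ▸ mem_insert_self _ _)
          fun k => mem_insert_of_mem (h y k)⟩
    rw [mk_insert hX, mk_insert hX, prod_insert hi, mk_congr (G := fun _ => 0) fun B hB =>
      if_neg fun h => hX (hB (h i h0)), mk_zero]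
    simp only [hI i h0, e1]
    nlinarith [mul_le_mul_of_nonneg_left h1 (ha (f i)), mul_le_mul_of_nonneg_right (he i h0) h3]

end mk

variable {Λ : Type} [Fintype Λ] [DecidableEq Λ] {T : ℕ} [NeZero T] (ex ey : Fin T → Λ)

/-- coins, family, marked part. -/
abbrev Om (T : ℕ) (Λ : Type) : Type := (Fin T → Bool) × Finset (Lp T Λ) × Finset (Lp T Λ)

/-- total weight of a function. -/
noncomputable def NuF (p : Fin T → ℝ) (b : Fin T × Λ → ℝ) (m n : Lp T Λ → ℝ) (F : Om T Λ → ℝ) : ℝ :=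
  ∑ ξ, Pw p ξ * mk (fun _ => 1) (fun g => 1 - ub b g) (L ex ey ξ) fun C =>
    mk m n C fun B => F (ξ, C, B)

open Classical in
/-- mass of an event. -/
noncomputable def Nu (p : Fin T → ℝ) (b : Fin T × Λ → ℝ) (m n : Lp T Λ → ℝ) (A : Om T Λ → Prop) :
    ℝ := NuF ex ey p b m n (Op.ind A)

/-- total mass. -/
noncomputable def Zn (p : Fin T → ℝ) (b : Fin T × Λ → ℝ) (m n : Lp T Λ → ℝ) : ℝ :=
  ∑ ξ, Pw p ξ * ∏ g ∈ L ex ey ξ, (m g + n g + (1 - ub b g))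

/-- the support. -/
def Sp (p : Fin T → ℝ) (m : Lp T Λ → ℝ) (ω : Om T Λ) : Prop :=
  Pw p ω.1 ≠ 0 ∧ ω.2.1 ⊆ L ex ey ω.1 ∧ ω.2.2 ⊆ ω.2.1 ∧ ∀ g ∈ ω.2.2, m g ≠ 0

/-- admissible weights. -/
structure Wg (p : Fin T → ℝ) (b : Fin T × Λ → ℝ) (m n : Lp T Λ → ℝ) : Prop where
  hp : ∀ s, 0 ≤ p s ∧ p s ≤ 1
  hb : Arc.Fld b
  hm : ∀ g, 0 ≤ m g ∧ m g ≤ ub b g
  hn : ∀ g, 0 ≤ n g

variable {ex ey} {p : Fin T → ℝ} {b : Fin T × Λ → ℝ} {m n : Lp T Λ → ℝ} {A A' : Om T Λ → Prop}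

lemma Wg.monoF (W : Wg p b m n) {F F' : Om T Λ → ℝ} (h : ∀ ω, Sp ex ey p m ω → F ω ≤ F' ω) :
    NuF ex ey p b m n F ≤ NuF ex ey p b m n F' :=
  sum_le_sum fun ξ _ => by
    by_cases h0 : Pw p ξ = 0
    · simp [h0]
    exact mul_le_mul_of_nonneg_left (mk_mono (fun _ => zero_le_one)
      (fun g => sub_nonneg.2 (ub_le_one W.hb.mem g)) fun C hC _ => mk_mono (fun g => (W.hm g).1)
        W.hn fun B hB h1 => h (ξ, C, B) ⟨h0, hC, hB, h1⟩) (Pw_nonneg W.hp ξ)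

lemma Wg.mono (W : Wg p b m n) (h : ∀ ω, Sp ex ey p m ω → A ω → A' ω) :
    Nu ex ey p b m n A ≤ Nu ex ey p b m n A' :=
  W.monoF fun ω hω => by
    unfold Op.ind; split_ifs with h1 h2
    exacts [le_rfl, absurd (h ω hω h1) h2, zero_le_one, le_rfl]

lemma Wg.sub (W : Wg p b m n) : Sub (Nu ex ey p b m n) where
  mono _ _ h := W.mono fun ω _ => h ω
  or A A' := by
    classical
    refine (W.monoF (F' := fun ω => Op.ind A ω + Op.ind A' ω) fun ω _ => ?_).trans (le_of_eq ?_)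
    · unfold Op.ind; by_cases h1 : A ω <;> by_cases h2 : A' ω <;> simp [h1, h2]
    · simp only [Nu, NuF, mk_add, mul_add, sum_add_distrib]
  bot := by simp [Nu, NuF, Op.ind, mk_zero]

lemma Wg.Zn_nn (W : Wg p b m n) : 0 ≤ Zn ex ey p b m n :=
  sum_nonneg fun ξ _ => mul_nonneg (Pw_nonneg W.hp ξ) (prod_nonneg fun g _ => add_nonneg
    (add_nonneg (W.hm g).1 (W.hn g)) (sub_nonneg.2 (ub_le_one W.hb.mem g)))

lemma ends_pts {ξ : Fin T → Bool} {C : Finset (Lp T Λ)} (h : C ⊆ L ex ey ξ) :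
    Arc.ends ex ey ξ (pts C) = 0 := card_eq_zero.2 (filter_eq_empty_iff.2 fun v hv k => by
  obtain ⟨g, h1, h2⟩ := mem_pts.1 hv
  exact k (mem_pts.2 ⟨g, h1, eq_lp (h h1) h2 ▸ mem_obv.2 (o_apply _ _)⟩))

/-- **long targets `X` and small targets `Y`.** -/
theorem tpS {ι : Type} [LinearOrder ι] (W : Wg p b m n) {Cl : Finset (Lp T Λ) → Prop}
    {cov : Lp T Λ → Finset ι} {θ e : ι → ℝ} {X Y : Finset ι} (hθ : ∀ z, 0 ≤ θ z)
    (hCl : ∀ A g, Cl (insert g A) → Cl A) (h : Drift ex ey p b (fun _ => 1) Cl cov θ X)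
    {v : ι → Fin T × Λ} {Sm : ι → Lp T Λ → Prop} (e0 : ∀ i, 0 ≤ e i)
    (h1 : ∀ i ∈ Y, ∀ g, v i ∈ g.2 → Sm i g → m g ≤ e i * (m g + n g) ∧ (∀ x ∈ X, x ∉ cov g) ∧
      ∀ j ∈ Y, v j ∈ g.2 → j = i) :
    (∏ z ∈ X, θ z) * Nu ex ey p b m n (fun ω => Cl ω.2.1 ∧ Cvd cov X ω.2.2 ∧
      ∀ i ∈ Y, ∃ g ∈ ω.2.2, v i ∈ g.2 ∧ Sm i g) ≤ (∏ i ∈ Y, e i) * Zn ex ey p b m n := by
  classical
  have key := tpG W.hp W.hb.mem hθ (fun _ => zero_le_one) (m := m)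
    (fun g => by simpa using W.hm g) W.hn hCl h
  have hE : 0 ≤ ∏ i ∈ Y, e i := prod_nonneg fun i _ => e0 i
  refine le_trans ?_ (mul_le_mul_of_nonneg_left key hE)
  rw [mul_left_comm]
  refine mul_le_mul_of_nonneg_left ?_ (prod_nonneg fun z _ => hθ z)
  rw [mul_sum]
  refine sum_le_sum fun ξ _ => ?_
  rw [mul_left_comm, ← mk_mul (∏ i ∈ Y, e i)]
  refine mul_le_mul_of_nonneg_left (mk_mono (fun _ => zero_le_one) (fun g => sub_nonneg.2
    (ub_le_one W.hb.mem g)) fun C hC _ => ?_) (Pw_nonneg W.hp ξ)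
  have m0 := fun g => (W.hm g).1
  by_cases hs : ∀ i ∈ Y, lp ex ey ξ (v i) ∈ C ∧ Sm i (lp ex ey ξ (v i))
  swap
  · refine le_trans (mk_mono (G := fun _ => 0) m0 W.hn fun B hB _ => (if_neg fun k => hs fun i hi =>
      ?_).le) (mk_zero.trans_le (mul_nonneg hE (mk_zero.ge.trans
        (mk_mono m0 W.hn fun _ _ _ => Op.ind_nn _ _))))
    obtain ⟨g, k1, k2, k3⟩ := k.2.2 i hi
    rw [← eq_lp (hC (hB k1)) k2]; exact ⟨hB k1, k3⟩
  have k1 := fun i hi => h1 i hi _ (self_mem_obv ξ (v i)) (hs i hi).2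
  have inj : Set.InjOn (fun i => lp ex ey ξ (v i)) Y := fun i hi j hj k =>
    (k1 j hj).2.2 i hi (by rw [← show _ = lp ex ey ξ (v j) from k]; exact self_mem_obv ξ (v i))
  refine le_trans (mk_mono m0 W.hn fun B hB _ => ?_) (mk_thin m0 W.hn (fun B => Op.ind_nn _ B) e0 Y
    inj (fun i hi => (hs i hi).1) (fun i hi => (k1 i hi).1) fun i hi B => if_congr
      (and_congr_right fun _ => forall₂_congr fun x hx => ?_) rfl rfl)
  · unfold Op.ind
    split_ifs with a1 a2 a3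
    · exact le_rfl
    · exact absurd ⟨a1.1, a1.2.1⟩ a3
    · refine absurd (fun i hi => ?_) a2
      obtain ⟨g, k1, k2, -⟩ := a1.2.2 i hi
      rwa [← eq_lp (hC (hB k1)) k2]
    all_goals norm_num
  · simp only [exists_mem_insert, (k1 i hi).2.1 x hx, false_or]

variable {X α κ : Type} [Fintype X] [SemilatticeSup α] [Preorder κ]

/-- static data of the covering bound: sites of the slots, ranges `lo`, colour separation `cs`,
prices `τ`, candidate points `J0`, root `x` of scale `μ`. -/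
structure Cx (T : ℕ) (Λ X : Type) where
  π : Λ → X
  K : ℕ
  μ : ℕ
  x : X
  lo : ℕ → ℕ
  cs : ℕ → ℕ
  τ : ℕ → ℕ → ℝ
  J0 : ℕ → X → Finset (Fin T × Λ)

namespace Cx
variable (c : Cx T Λ X) (S : Sys X α κ)

/-- far apart at scale `k`. -/
def Far (k s : ℕ) (u v : Fin T × Λ) : Prop := s < S.d (c.π u.2) (c.π v.2) + 2 * c.lo k
/-- the loop goes far from `v`. -/
def Lng (k s : ℕ) (v : Fin T × Λ) (g : Lp T Λ) : Prop := ∃ u ∈ g.2, c.Far S k s v u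
/-- the point is below the root and isolated from the junk of the scales `k ≤ j < μ`. -/
def Cln (U : ℕ → X → Prop) (k : ℕ) (u : Fin T × Λ) : Prop := S.d c.x (c.π u.2) ≤ c.lo c.μ ∧
  ∀ j, k ≤ j → j < c.μ → ∃ z, S.d z (c.π u.2) ≤ c.lo j ∧ S.Iso U j z
/-- labels: a point, long or small. -/
def J (k : ℕ) (y : X) : Finset ((Fin T × Λ) × Bool) := c.J0 k y ×ˢ univ
/-- the label is realised by a marked loop. -/
def Ht (Mk : Lp T Λ → Prop) (ω : Om T Λ) (k s : ℕ) (v : (Fin T × Λ) × Bool) : Prop :=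
  ∃ g ∈ ω.2.2, v.1 ∈ g.2 ∧ bif v.2 then c.Lng S k s v.1 g else ¬ c.Lng S k s v.1 g ∧ Mk g
/-- prices. -/
def q (k s : ℕ) (_ : (Fin T × Λ) × Bool) : ℝ := 4 * c.τ k s

/-- numerics. -/
structure Ok : Prop where
  K2 : 2 ≤ c.K
  lo : ∀ k < c.μ, c.lo k + S.ρ (k + 1) ≤ c.lo (k + 1)
  cs : ∀ k < c.μ, 2 * c.lo k ≤ c.cs k ∧ c.cs k ≤ S.sep k
  sep : ∀ k < c.μ, ∀ l < k, S.sep l + 2 * c.lo k ≤ S.sep k
  J0 : ∀ k y, ∀ v ∈ c.J0 k y, S.d y (c.π v.2) ≤ c.lo k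
  τ0 : ∀ k s, 0 < c.τ k s ∧ c.τ k s ≤ 1 / 2
  τ1 : ∀ k < c.μ, ∀ s, c.cs k ≤ s → s ≤ S.sep k → c.τ k s ^ 8 ≤ dl c.K (k + 1)
  τ2 : ∀ k < c.μ, ∀ l < k, ∀ s, c.cs l ≤ s → s ≤ S.sep l → c.τ k (S.sep k) ≤ c.τ l s

/-- **the Green hypothesis**: `R0 A` = class of the final state, `U A` = its junk. -/
def GH (ex ey : Fin T → Λ) (p : Fin T → ℝ) (b : Fin T × Λ → ℝ) (R0 : Finset (Lp T Λ) → Prop)
    (U : Finset (Lp T Λ) → ℕ → X → Prop) : Prop :=
  ∀ A ξ O k s u v, Pw p ξ ≠ 0 → A ⊆ L ex ey ξ → O ⊆ pts A → Arc.ends ex ey ξ O ≤ 1 → R0 A →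
    k < c.μ → c.cs k ≤ s → s ≤ S.sep k → c.Cln S (U A) k v → b v ≠ 0 → b u ≠ 0 →
    c.Far S k s u v → Gc ex ey p b O ξ v u ≤ c.τ k s ^ 16

variable {c S} {j : ℕ} {σ : Wt X ((Fin T × Λ) × Bool)}

lemma Far.symm {k s : ℕ} {u v : Fin T × Λ} (h : c.Far S k s u v) : c.Far S k s v u := by
  unfold Far at *; rwa [S.d_comm]

lemma dz (N : c.Ok S) (h : S.Nd c.K c.cs c.J c.μ c.x j σ) {n k : ℕ} (hn : n ∈ σ.I)
    (h1 : σ.lv n ≤ k) (h2 : k ≤ c.μ) : S.d (σ.z n k) (c.π (σ.pt n).1.2) ≤ c.lo k := by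
  induction k, h1 using Nat.le_induction with
  | base => exact N.J0 _ _ _ (mem_product.1 (h.1.lf n hn)).1
  | succ k hk ih =>
    have := ih (by omega)
    have := h.1.ch n hn k hk (by omega)
    have := S.d_tri (σ.z n (k + 1)) (σ.z n k) (c.π (σ.pt n).1.2)
    have := N.lo k (by omega)
    omega

lemma far (N : c.Ok S) (h : S.Nd c.K c.cs c.J c.μ c.x j σ) {n n' : ℕ} (hn : n ∈ σ.I)
    (hn' : n' ∈ σ.I) (ne : n ≠ n') : ∃ k, ell c.K n n' = k + 1 ∧ k < c.μ ∧ σ.lv n ≤ k ∧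
      c.cs k ≤ S.sq σ n k ∧ S.sq σ n k ≤ S.sep k ∧ c.τ k (S.sq σ n k) ≤ c.τ (σ.lv n) (σ.sp n) ∧
      c.Far S k (S.sq σ n k) (σ.pt n).1 (σ.pt n').1 ∧
      c.Far S (σ.lv n) (σ.sp n) (σ.pt n).1 (σ.pt n').1 := by
  obtain ⟨k, hk⟩ : ∃ k, ell c.K n n' = k + 1 := ⟨_, (Nat.succ_pred_eq_of_pos (ell_pos N.K2 ne)).symm⟩
  have h1 : ell c.K n n' ≤ c.μ := (ell_le_iff N.K2).2 ((h.1.pre n hn).trans (h.1.pre n' hn').symm)
  obtain ⟨e1, e2⟩ := ell_spec N.K2 hk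
  obtain ⟨a1, a2⟩ := h.1.sep n hn n' hn' k e1 e2
  have a3 := dz N h hn a1 (by omega)
  have a4 := dz N h hn' (h.1.sep n' hn' n hn k e1.symm e2.symm).1 (by omega)
  have a5 := S.d_tri (σ.z n k) (c.π (σ.pt n).1.2) (σ.z n' k)
  have a6 := S.d_tri (c.π (σ.pt n).1.2) (c.π (σ.pt n').1.2) (σ.z n' k)
  have a7 := S.d_comm (c.π (σ.pt n').1.2) (σ.z n' k)
  have a8 := h.1.sp n hn
  refine ⟨k, hk, by omega, a1, ?_⟩
  unfold Far
  unfold Sys.sq at a2 ⊢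
  split_ifs at a2 ⊢ with e
  · subst e; exact ⟨a8.1, a8.2, le_rfl, by omega, by omega⟩
  · have := N.sep k (by omega) (σ.lv n) (by omega)
    exact ⟨(N.cs k (by omega)).2, le_rfl, N.τ2 k (by omega) _ (by omega) _ a8.1 a8.2, by omega,
      by omega⟩

lemma rp_le {t : ℝ} {n : ℕ} (hn : n ≠ 0) {x : ℝ} (h0 : 0 ≤ x) (ht : 0 ≤ t) (h : x ≤ t ^ n) :
    x ^ ((n : ℝ)⁻¹) ≤ t :=
  (Real.rpow_le_rpow h0 h (by positivity)).trans_eq (Real.pow_rpow_inv_natCast ht hn)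

variable {R0 : Finset (Lp T Λ) → Prop} {U : Finset (Lp T Λ) → ℕ → X → Prop} {Mk : Lp T Λ → Prop}

/-- **a witness is realised with small probability.** -/
theorem real_le (W : Wg p b m n) (N : c.Ok S) (hR : ∀ A g, R0 (insert g A) → R0 A)
    (hU : ∀ A g k y, U A k y → U (insert g A) k y) (G : c.GH S ex ey p b R0 U)
    (hM : ∀ k < c.μ, ∀ s ≤ S.sep k, ∀ v g, v ∈ g.2 → ¬ c.Lng S k s v g → Mk g →
      m g ≤ c.τ k s * (m g + n g))
    (h : S.Nd c.K c.cs c.J c.μ c.x j σ) :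
    Nu ex ey p b m n (fun ω => R0 ω.2.1 ∧ σ.Real (c.Ht S Mk) (fun ω => S.Iso (U ω.2.1)) c.μ ω) ≤
      Zn ex ey p b m n * σ.wt c.q := by
  classical
  set t : ℕ → ℝ := fun n => c.τ (σ.lv n) (σ.sp n) with ht
  have t0 : ∀ n, 0 < t n ∧ t n ≤ 1 / 2 := fun n => N.τ0 _ _
  set v : ℕ → Fin T × Λ := fun n => (σ.pt n).1 with hv
  set Cl : Finset (Lp T Λ) → Prop := fun A => R0 A ∧ ∀ n ∈ σ.I, ∀ k, σ.lv n ≤ k → k < c.μ →
    S.Iso (U A) k (σ.z n k) with hCl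
  have cl : ∀ A g, Cl (insert g A) → Cl A := fun A g k =>
    ⟨hR A g k.1, fun n hn l h1 h2 => (k.2 n hn l h1 h2).mono fun u => hU A g l u⟩
  have cn : ∀ A, Cl A → ∀ n ∈ σ.I, ∀ k, σ.lv n ≤ k → c.Cln S (U A) k (v n) := fun A hA n hn k hk =>
    ⟨h.1.root n hn ▸ dz N h hn (h.2 n hn).le le_rfl, fun l h1 h2 =>
      ⟨_, dz N h hn (hk.trans h1) h2.le, hA.2 n hn l (hk.trans h1) h2⟩⟩
  set I1 := σ.I.filter fun n => (σ.pt n).2 = true with hI1
  set cov : Lp T Λ → Finset ℕ := fun g => I1.filter fun n =>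
    v n ∈ g.2 ∧ c.Lng S (σ.lv n) (σ.sp n) (v n) g ∧ ub b g ≠ 0 with hcov
  have i1 : ∀ {n}, n ∈ I1 → n ∈ σ.I := fun h => (mem_filter.1 h).1
  set r : ℕ → ℕ → ℝ := fun u w => c.τ (ell c.K u w - 1) (S.sq σ u (ell c.K u w - 1)) with hr
  have r0 : ∀ u w, 0 < r u w := fun u w => (N.τ0 _ _).1
  have D : Drift ex ey p b (fun _ => 1) Cl cov (fun n => 1 / (4 * t n)) I1 := by
    refine drift_of (pt := v) (γ := fun n => 2 * t n ^ 16) (m := 1) W.hp W.hb (tgt (j := j)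
      (g := fun u w => r u w ^ 8 * r w u ^ 8) (a := fun n => (t n)⁻¹ ^ 4) (κ := 1 / 2) N.K2
      (fun n hn => h.1.pre n (i1 hn)) (fun u w => by have := r0 u w; have := r0 w u; positivity)
      (fun n => ?_) (fun u hu w hw ne => ?_) (fun n => by have := (t0 n).1; positivity)
      (by norm_num) (by norm_num) fun n _ => ?_) (fun u hu w hw e => ?_)
      (fun l x hx => (mem_filter.1 hx).2.1) (fun A ξ l k1 k2 k3 w hw u hu ne => ?_) (fun n => ?_)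
      (fun A hA x hx => ?_) zero_le_one (fun _ _ => le_rfl) fun n _ => ?_
    · have : 2 ≤ (t n)⁻¹ := by rw [le_inv_comm₀ two_pos (t0 n).1]; linarith [(t0 n).2]
      exact le_trans (by norm_num) (pow_le_pow_left₀ zero_le_two this 4)
    · obtain ⟨k, e, b1, -, b2, b3, b4, -⟩ := far N h (i1 hu) (i1 hw) ne
      obtain ⟨k', e', -, -, c2, c3, c4, -⟩ := far N h (i1 hw) (i1 hu) ne.symm
      obtain rfl : k' = k := by rw [ell_comm] at e'; omega
      have k1 : ∀ x y : ℝ, 0 < x → x ≤ y → y⁻¹ ^ 4 * x ^ 8 ≤ x ^ 4 := fun x y h1 h2 => by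
        have : y⁻¹ * x ≤ 1 := by rw [inv_mul_le_iff₀ (h1.trans_le h2)]; linarith
        have h3 := pow_le_one₀ (n := 4) (mul_nonneg (inv_nonneg.2 (h1.le.trans h2)) h1.le) this
        rw [show y⁻¹ ^ 4 * x ^ 8 = (y⁻¹ * x) ^ 4 * x ^ 4 by ring]
        exact mul_le_of_le_one_left (by positivity) h3
      have a1 := N.τ1 _ b1 _ b2 b3
      have a2 := N.τ1 _ b1 _ c2 c3
      simp only [hr, e, e', Nat.add_sub_cancel]
      have a3 := mul_le_mul (k1 _ _ (N.τ0 _ _).1 c4) (k1 _ _ (N.τ0 _ _).1 b4)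
        (by have := (N.τ0 k' (S.sq σ u k')).1; have := (t0 u).1; positivity)
        (by have := (N.τ0 k' (S.sq σ w k')).1; positivity)
      nlinarith [sq_nonneg (c.τ k' (S.sq σ u k') ^ 4 - c.τ k' (S.sq σ w k') ^ 4)]
    · have a := (t0 n).1
      have := rp_le (n := 4) (t := 2 * t n) (x := 6 / (t n)⁻¹ ^ 4) (by norm_num) (by positivity)
        (by positivity) (by rw [inv_pow, div_inv_eq_mul]; nlinarith [pow_pos a 4])
      rw [show ((4 : ℕ) : ℝ)⁻¹ = 1 / 4 by norm_num] at this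
      refine (mul_le_mul_of_nonneg_left this (by positivity)).trans (le_of_eq ?_)
      field_simp; norm_num
    · by_contra ne
      obtain ⟨k, -, b1, -, b2, -, -, b3, -⟩ := far N h (i1 hu) (i1 hw) ne
      have := (N.cs k b1).1
      rw [Far, show (σ.pt u).1 = (σ.pt w).1 from e, S.d_self] at b3
      omega
    · have hw' := i1 (mem_inter.1 hw).1
      have hu' := i1 (mem_inter.1 hu).1
      obtain ⟨k, e, b1, b0, b2, b3, -, b4, -⟩ := far N h hw' hu' ne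
      obtain ⟨k', e', -, -, c2, c3, -, c4, -⟩ := far N h hu' hw' ne.symm
      have al : ∀ {z}, z ∈ I1 ∩ cov l → b (v z) ≠ 0 := fun hz => prod_ne_zero_iff.1
        (mem_filter.1 (mem_inter.1 hz).2).2.2.2 _ (mem_filter.1 (mem_inter.1 hz).2).2.1
      obtain rfl : k' = k := by rw [ell_comm] at e'; omega
      have en : Arc.ends ex ey ξ (pts A) ≤ 1 := (ends_pts k2).trans_le zero_le_one
      have g1 := G A ξ _ _ _ (v u) (v w) k1 k2 Subset.rfl en (cl _ _ k3).1 b1 b2 b3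
        (cn A (cl _ _ k3) w hw' _ b0) (al hw) (al hu) b4.symm
      have g2 := G A ξ _ _ _ (v u) (v w) k1 k2 Subset.rfl en (cl _ _ k3).1 b1 c2 c3
        (cn A (cl _ _ k3) w hw' _ b0) (al hw) (al hu) c4
      simp only [hr, e, e', Nat.add_sub_cancel]
      have p1 := (N.τ0 k' (S.sq σ w k')).1
      have p2 := (N.τ0 k' (S.sq σ u k')).1
      rcases le_total (c.τ k' (S.sq σ w k')) (c.τ k' (S.sq σ u k')) with l | l
      · exact g1.trans ((pow_add _ 8 8).le.trans (by gcongr))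
      · exact g2.trans ((pow_add _ 8 8).le.trans (by gcongr))
    · have := pow_le_pow_left₀ (t0 n).1.le (t0 n).2 16
      exact ⟨by have := (t0 n).1; positivity, by linarith [show (1 / 2 : ℝ) ^ 16 ≤ 1 / 2 by norm_num]⟩
    · have hx' := i1 hx
      have b := h.1.sp x hx'
      refine One1.exit W.hp W.hb (by have := (t0 x).1; positivity) ((pow_le_pow_left₀ (t0 x).1.le
        (t0 x).2 16).trans (by norm_num)) (x := v x) (fun l k => (mem_filter.1 k.2).2.1)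
        (c.Far S (σ.lv x) (σ.sp x) (v x)) fun ξ k1 k2 _ k4 => ?_
      obtain ⟨⟨u, u1, u2⟩, u3⟩ := (mem_filter.1 k4.2).2.2
      obtain ⟨i, hi⟩ := WN.exists_exit (Out := c.Far S (σ.lv x) (σ.sp x) (v x)) (fun k => by
        have := (N.cs _ (h.2 x hx')).1
        rw [Far, S.d_self] at k; omega) (mem_obv.1 u1) u2
      refine ⟨i, hi, G (insert (lp ex ey ξ (v x)) A) ξ _ _ _ _ _ k1 (insert_subset (lp_mem_L _ _) k2)
        (union_subset (pts_mono (subset_insert _ _)) fun z hz => mem_pts.2 ⟨_, mem_insert_self _ _,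
          WN.exA_sub ex ey _ _ _ hz⟩) ((Arc.ends_union _ _ _).trans ?_) k4.1.1 (h.2 x hx') b.1 b.2
        (cn _ k4.1 x hx' _ le_rfl) (prod_ne_zero_iff.1 u3 _ (self_mem_obv _ _))
        (prod_ne_zero_iff.1 u3 _ (WN.exA_sub ex ey _ (i + 1) _ (mem_image_of_mem _
          (self_mem_range_succ _)))) (Far.symm hi.2)⟩
      rw [ends_pts k2, zero_add, ← hi.Al_eq]
      exact Arc.ends_Al _ _ _ _
    · have a := (t0 n).1
      have a' := (t0 n).2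
      have := rp_le (n := 8) (t := 2 * t n ^ 2) (x := 2 * (2 * t n ^ 16)) (by norm_num)
        (by positivity) (by positivity) (by nlinarith [pow_pos a 16])
      rw [show ((8 : ℕ) : ℝ)⁻¹ = 1 / 4 / 2 by norm_num] at this
      have h2 := mul_le_mul_of_nonneg_left this (by positivity : 0 ≤ 1 / (4 * t n))
      rw [show 1 / (4 * t n) * (2 * t n ^ 2) = t n / 2 by field_simp; norm_num] at h2
      have := pow_le_pow_left₀ a.le a' 16
      norm_num at this h2 ⊢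
      linarith
  have key := tpS W (Y := σ.I.filter fun n => ¬ (σ.pt n).2 = true) (e := t) (v := v)
    (Sm := fun n g => ¬ c.Lng S (σ.lv n) (σ.sp n) (v n) g ∧ Mk g)
    (fun n => by have := (t0 n).1; positivity) cl D (fun n => (t0 n).1.le) fun i hi g h1 h2 => ?_
  · have p1 : 0 < ∏ z ∈ I1, 1 / (4 * t z) := prod_pos fun n _ => by have := (t0 n).1; positivity
    refine (W.mono fun ω hs hω => ?_).trans (le_of_mul_le_mul_left (key.trans ?_) p1)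
    · refine ⟨⟨hω.1, fun n hn => (hω.2 n hn).2⟩, fun n hn => ?_, fun n hn => ?_⟩
      · obtain ⟨g, k1, k2, k3⟩ := (hω.2 n (i1 hn)).1
        rw [(mem_filter.1 hn).2] at k3
        exact ⟨g, k1, mem_filter.2 ⟨hn, k2, k3, fun k => hs.2.2.2 g k1
          (le_antisymm ((W.hm g).2.trans_eq k) (W.hm g).1)⟩⟩
      · obtain ⟨g, k1, k2, k3⟩ := (hω.2 n (mem_filter.1 hn).1).1
        rw [Bool.eq_false_iff.2 (mem_filter.1 hn).2] at k3
        exact ⟨g, k1, k2, k3⟩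
    · rw [mul_left_comm, mul_comm]
      refine mul_le_mul_of_nonneg_left ?_ W.Zn_nn
      rw [Wt.wt, ← prod_filter_mul_prod_filter_not σ.I (fun n => (σ.pt n).2 = true), ← mul_assoc,
        ← prod_mul_distrib, prod_eq_one (s := I1) fun n _ => one_div_mul_cancel (by have := (t0 n).1; positivity),
        one_mul]
      exact prod_le_prod (fun n _ => (t0 n).1.le) fun n _ => by
        have := (t0 n).1; unfold q; linarith
  · have hi' := (mem_filter.1 hi).1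
    have k : ∀ n ∈ σ.I, v n ∈ g.2 → n = i := fun n hn k => by
      by_contra ne
      obtain ⟨_, -, -, -, -, -, -, -, b⟩ := far N h hi' hn (Ne.symm ne)
      exact h2.1 ⟨_, k, b⟩
    exact ⟨hM _ (h.2 i hi') _ (h.1.sp i hi').2 _ g h1 h2.1 h2.2, fun x hx k1 => (mem_filter.1 hi).2
      (k x (i1 hx) (mem_filter.1 k1).2.1 ▸ (mem_filter.1 hx).2),
      fun n hn => k n (mem_filter.1 hn).1⟩

variable {V : Om T Λ → ℕ → X → Prop} {vol nc g vj : ℕ → ℕ} {ε : ℕ → ℝ}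

/-- everything that the covering bound needs. -/
structure Hyp (c : Cx T Λ X) (S : Sys X α κ) (ex ey : Fin T → Λ) (p : Fin T → ℝ)
    (b : Fin T × Λ → ℝ) (m n : Lp T Λ → ℝ) (R0 : Finset (Lp T Λ) → Prop)
    (U : Finset (Lp T Λ) → ℕ → X → Prop) (Mk : Lp T Λ → Prop) (V : Om T Λ → ℕ → X → Prop) :
    Prop where
  W : Wg p b m n
  hR : ∀ A g, R0 (insert g A) → R0 A
  hU : ∀ A g k y, U A k y → U (insert g A) k y
  G : c.GH S ex ey p b R0 U
  /-- small loops are rarely marked -/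
  hM : ∀ k < c.μ, ∀ s ≤ S.sep k, ∀ v g, v ∈ g.2 → ¬ c.Lng S k s v g → Mk g →
    m g ≤ c.τ k s * (m g + n g)
  /-- a visit is seen at a candidate point -/
  hV : ∀ k < c.μ, ∀ s ≤ S.sep k, ∀ ω y, Sp ex ey p m ω → R0 ω.2.1 →
    S.d c.x y + S.loc k ≤ S.loc c.μ → V ω k y → S.Iso (U ω.2.1) k y →
    ∃ v ∈ c.J0 k y, ∃ g ∈ ω.2.2, v ∈ g.2 ∧ (c.Lng S k s v g ∨ Mk g)

/-- the numerics of the union bound. -/
structure Nm (c : Cx T Λ X) (S : Sys X α κ) (vol nc g vj : ℕ → ℕ) (ε : ℕ → ℝ) : Prop where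
  ok : c.Ok S
  num : ∀ k < c.μ, S.Num c.K c.cs vol nc g k
  hj : ∀ k y, (c.J0 k y).card ≤ vj k
  e0 : ∀ k, 0 ≤ ε k
  he : ∀ k < c.μ, (S.k0 * nc k * (vol k / g k + 1) : ℕ) *
      (g k * (8 * vj k * c.τ k (c.cs k))) ^ (S.r + 1) +
    (((nc k * ((S.tm + 1) * S.nl k (S.k0 - 1)) : ℕ) * (8 * vj k * c.τ k (S.sep k))) ^ (S.r + 1) +
      (vol k * ε k) ^ (S.a1 + 1)) ≤ ε (k + 1)

lemma Nm.sum_q (N : c.Nm S vol nc g vj ε) (k s : ℕ) (y : X) :
    ∑ v ∈ c.J k y, c.q k s v ≤ 8 * vj k * c.τ k s := by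
  have h1 : ((c.J0 k y).card : ℝ) ≤ vj k := Nat.cast_le.2 (N.hj k y)
  have h2 := (N.ok.τ0 k s).1
  simp only [q, J, sum_const, card_product, card_univ, Fintype.card_bool, nsmul_eq_mul]
  push_cast; nlinarith

lemma Hyp.vis (H : c.Hyp S ex ey p b m n R0 U Mk V) : ∀ k < c.μ, ∀ s ≤ S.sep k, ∀ ω y,
    (Sp ex ey p m ω ∧ R0 ω.2.1) ∧ V ω k y ∧ S.d c.x y + S.loc k ≤ S.loc c.μ →
    S.Iso (U ω.2.1) k y → ∃ v ∈ c.J k y, c.Ht S Mk ω k s v := fun k hk s hs ω y h hi => by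
  obtain ⟨v, h1, g, h2, h3, h4⟩ := H.hV k hk s hs ω y h.1.1 h.1.2 h.2.2 h.2.1 hi
  by_cases h5 : c.Lng S k s v g
  · exact ⟨(v, true), mem_product.2 ⟨h1, mem_univ _⟩, g, h2, h3, h5⟩
  · exact ⟨(v, false), mem_product.2 ⟨h1, mem_univ _⟩, g, h2, h3, h5, h4.resolve_left h5⟩

variable {d t : ℕ} {E : α} {Z : κ}

/-- **F3**: covisit trees. -/
theorem Hyp.w2 (H : c.Hyp S ex ey p b m n R0 U Mk V) (N : c.Nm S vol nc g vj ε)
    (hd : S.k0 + S.oc + d ≤ S.tm) (h : S.Good d E Z c.μ t c.x) (ht : t ≤ S.tm) :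
    Nu ex ey p b m n (fun ω => R0 ω.2.1 ∧ S.W2 d E Z (V ω) (S.Iso (U ω.2.1)) c.μ c.x) ≤
      Zn ex ey p b m n * ε c.μ := by
  have : Nonempty ((Fin T × Λ) × Bool) := ⟨((0, ex 0), true)⟩
  have p0 : ∀ k s, 0 ≤ 8 * (vj k : ℝ) * c.τ k s := fun k s => by
    have := (N.ok.τ0 k s).1; positivity
  exact (H.W.mono fun ω hs hω => ⟨hω.1, (Sys.W2.loc hω.2 (by rw [S.d_self]; omega)).mono
    (fun k y hy => ⟨⟨hs, hω.1⟩, hy⟩) fun _ _ h => h⟩).trans (Sys.dom_W2 (j := 0) H.W.sub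
      (fun k s _ => mul_nonneg (by norm_num) (N.ok.τ0 k s).1.le) hd N.num H.vis (fun k => p0 k _)
      (fun k => p0 k _) N.e0 (fun k _ => N.sum_q k _) (fun k _ => N.sum_q k _) N.he h ht _ _
      H.W.Zn_nn fun σ hσ => real_le H.W N.ok H.hR H.hU H.G H.hM hσ)

/-- **F3** for the reset: one child instead of `a1 + 1`. -/
theorem Hyp.wn (H : c.Hyp S ex ey p b m n R0 U Mk V) (N : c.Nm S vol nc g vj ε)
    (hd : S.k0 + S.oc + d ≤ S.tm) {k : ℕ} (hk : c.μ = k + 1) (h : S.Good d E Z (k + 1) t c.x)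
    (ht : t ≤ S.tm) :
    Nu ex ey p b m n (fun ω => R0 ω.2.1 ∧ S.Wn d E Z (V ω) (S.Iso (U ω.2.1)) 0 k c.x) ≤
      Zn ex ey p b m n * (ε (k + 1) + vol k * ε k) := by
  have : Nonempty ((Fin T × Λ) × Bool) := ⟨((0, ex 0), true)⟩
  have p0 : ∀ k s, 0 ≤ 8 * (vj k : ℝ) * c.τ k s := fun k s => by
    have := (N.ok.τ0 k s).1; positivity
  have q0 : ∀ k s v, 0 ≤ c.q k s v := fun k s _ => mul_nonneg (by norm_num) (N.ok.τ0 k s).1.le
  have hk' : k < c.μ := by omega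
  refine (H.W.mono fun ω hs hω => ⟨hω.1, (Sys.Wn.loc (R := S.loc c.μ) hω.2
    (by rw [S.d_self, hk]; omega)).mono (fun k y hy => ⟨⟨hs, hω.1⟩, hy⟩) fun _ _ h => h⟩).trans
    (((Sys.dom_Wn (j := 0) H.W.sub q0 (by have := N.ok.K2; omega) (N.num k hk') (H.vis k hk')
      (p0 k _) (p0 k _) (N.e0 k) (N.sum_q k _) (N.sum_q k _) h ht fun y j hy => Sys.dom_W2 H.W.sub
        q0 hd (fun l hl => N.num l (by omega)) (fun l hl => H.vis l (by omega)) (fun k => p0 k _)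
        (fun k => p0 k _) N.e0 (fun k _ => N.sum_q k _) (fun k _ => N.sum_q k _)
        (fun l hl => N.he l (by omega)) hy.good hd).le ?_) _ _ H.W.Zn_nn fun σ hσ =>
          hk ▸ real_le H.W N.ok H.hR H.hU H.G H.hM (hk ▸ hσ))
  have := N.he k hk'
  have : 0 ≤ (vol k * ε k) ^ (S.a1 + 1) := by have := N.e0 k; positivity
  rw [zero_add, pow_one]; linarith

end Cx

end Crest.Agent.N337.Rg
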